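import Vale.Agent.P092.H53.PmA
import Vale.Agent.P092.H43.PPur
import Vale.Agent.P092.H962.C.Amp

/-!
P092, TEAM P, all amplifications (helper421): the tools of rows [P-SUPP] (H53/PmA of helper53) and
[P-PUR], half A (H43/PPur of helper43) for the picture `RC.PicX`. New: the invariant state of a
`PicX` is faithful (`PicX.toI`), from ergodicity.
-/

set_option linter.all false

open scoped InnerProductSpace ENNReal Topology
open Filter ContinuousLinearMap TopologicalSpace Set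

namespace Vale.Agent.P092.SP.X

open Vale.Agent.P092.RC (Cm TRN Moore PicX)
open Vale.Agent.P092.H53
open Vale.Agent.P092.H53.Pm (lam_inv_mul lam_mul_inv SU VU PU df pre comm_proj vu_map vu_mem pi_mem
  lam_mem lam_mem' df_sq df_nonneg vu_mono)
open Vale.Agent.P092.H43.PPur (Fam Prx cx tsupp_cx)

/-! ### The invariant state is faithful -/

section faith

variable {E Γ K : Type} [Group E] [TopologicalSpace E] [Group Γ] [NormedAddCommGroup K]
  [InnerProductSpace ℂ K] [CompleteSpace K] {π : E →* (K →L[ℂ] K)} {lam : Γ →* (K →L[ℂ] K)}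
  {W : Set (K →L[ℂ] K)} {Ω : K}

/-- what the support tools need: an invariant faithful vector state -/
structure PicI (π : E →* (K →L[ℂ] K)) (lam : Γ →* (K →L[ℂ] K)) (W : Set (K →L[ℂ] K)) (Ω : K) :
    Prop where
  adjP : ∀ g, adjoint (π g) = π g⁻¹
  adjL : ∀ γ, adjoint (lam γ) = lam γ⁻¹
  Wadj : ∀ w ∈ W, adjoint w ∈ W
  nΩ : ‖Ω‖ = 1
  inv : ∀ T, Cm W T → (∀ g, T * π g = π g * T) → ∀ γ,
    ⟪Ω, (lam γ * T * lam γ⁻¹) Ω⟫_ℂ = ⟪Ω, T Ω⟫_ℂ
  faith : ∀ T, Cm W T → (∀ g, T * π g = π g * T) → T Ω = 0 → T = 0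

/-- the operators which commute with `W` and `π` and annihilate the orbit of the vector -/
def Ann (π : E →* (K →L[ℂ] K)) (lam : Γ →* (K →L[ℂ] K)) (W : Set (K →L[ℂ] K)) (Ω : K) :
    Set (K →L[ℂ] K) :=
  {T | Cm W T ∧ (∀ g, T * π g = π g * T) ∧ ∀ γ, T (lam γ Ω) = 0}

/-- the common kernel -/
def Ker (π : E →* (K →L[ℂ] K)) (lam : Γ →* (K →L[ℂ] K)) (W : Set (K →L[ℂ] K)) (Ω : K) :
    Submodule ℂ K where
  carrier := {ξ | ∀ T ∈ Ann π lam W Ω, T ξ = 0}
  add_mem' := fun {a b} ha hb T hT => by rw [map_add, ha T hT, hb T hT, add_zero]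
  zero_mem' := fun T _ => map_zero T
  smul_mem' := fun c x hx T hT => by rw [map_smul, hx T hT, smul_zero]

theorem mem_Ker {ξ : K} : ξ ∈ Ker π lam W Ω ↔ ∀ T ∈ Ann π lam W Ω, T ξ = 0 := Iff.rfl

theorem isClosed_Ker : IsClosed ((Ker π lam W Ω : Submodule ℂ K) : Set K) := by
  have e : ((Ker π lam W Ω : Submodule ℂ K) : Set K) = ⋂ T ∈ Ann π lam W Ω, {ξ | T ξ = 0} := by
    ext ξ
    simp only [SetLike.mem_coe, mem_Ker, mem_iInter, mem_setOf_eq]
  rw [e]
  exact isClosed_biInter fun T _ => isClosed_singleton.preimage T.continuous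

/-- the invariant state of a picture is faithful on the operators commuting with `W` and `π` -/
theorem faithX (hadjP : ∀ g, adjoint (π g) = π g⁻¹) (hadjL : ∀ γ, adjoint (lam γ) = lam γ⁻¹)
    (hcomm : ∀ g γ, π g * lam γ = lam γ * π g) (hWadj : ∀ w ∈ W, adjoint w ∈ W)
    (hWL : ∀ w ∈ W, ∀ γ, w * lam γ = lam γ * w)
    (herg : ∀ S : Set E, Moore S → ∀ T, Cm W T → (∀ γ, T * lam γ = lam γ * T) →
      (∀ g ∈ S, T * π g = π g * T) → ∃ z : ℂ, T = z • (1 : K →L[ℂ] K)) (hΩ : ‖Ω‖ = 1)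
    (hinv : ∀ T, Cm W T → (∀ g, T * π g = π g * T) → ∀ γ,
      ⟪Ω, (lam γ * T * lam γ⁻¹) Ω⟫_ℂ = ⟪Ω, T Ω⟫_ℂ) {T : K →L[ℂ] K} (hT : Cm W T)
    (hTp : ∀ g, T * π g = π g * T) (h0 : T Ω = 0) : T = 0 := by
  -- the orbit of the vector is annihilated
  have hann : T ∈ Ann π lam W Ω := by
    refine ⟨hT, hTp, fun γ => ?_⟩
    have hS : Cm W (adjoint T * T) := by
      intro w hw
      have h1 := hT w hw
      have h2 := hT _ (hWadj w hw)
      have h3 : adjoint T * w = w * adjoint T := by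
        have h4 := congrArg adjoint h2
        rw [mul_def, mul_def, adjoint_comp, adjoint_comp, adjoint_adjoint] at h4
        exact h4.symm
      rw [mul_assoc, h1, ← mul_assoc, h3, mul_assoc]
    have hSp : ∀ g, (adjoint T * T) * π g = π g * (adjoint T * T) := by
      intro g
      have h1 := hTp g
      have h2 := hTp g⁻¹
      have h3 : adjoint T * π g = π g * adjoint T := by
        have h4 := congrArg adjoint h2
        rw [mul_def, mul_def, adjoint_comp, adjoint_comp, hadjP, inv_inv] at h4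
        exact h4.symm
      rw [mul_assoc, h1, ← mul_assoc, h3, mul_assoc]
    have h1 := hinv _ hS hSp γ⁻¹
    rw [inv_inv] at h1
    have h2 : ⟪Ω, (adjoint T * T) Ω⟫_ℂ = 0 := by
      have : (adjoint T * T) Ω = adjoint T (T Ω) := rfl
      rw [this, h0, map_zero, inner_zero_right]
    rw [h2] at h1
    have h3 : ⟪Ω, (lam γ⁻¹ * (adjoint T * T) * lam γ) Ω⟫_ℂ = ⟪T (lam γ Ω), T (lam γ Ω)⟫_ℂ := by
      have e1 : (lam γ⁻¹ * (adjoint T * T) * lam γ) Ω = lam γ⁻¹ (adjoint T (T (lam γ Ω))) := rfl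
      rw [e1, ← hadjL γ, adjoint_inner_right, adjoint_inner_right]
    rw [h3] at h1
    exact inner_self_eq_zero.1 h1
  -- the common kernel is invariant
  haveI : CompleteSpace (Ker π lam W Ω) := (isClosed_Ker (π := π) (lam := lam) (W := W)
    (Ω := Ω)).completeSpace_coe
  have kW : ∀ w ∈ W, ∀ ξ ∈ Ker π lam W Ω, w ξ ∈ Ker π lam W Ω := by
    intro w hw ξ hξ S hS
    have h1 : S (w ξ) = w (S ξ) := congrArg (fun A : K →L[ℂ] K => A ξ) (hS.1 w hw)
    rw [h1, hξ S hS, map_zero]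
  have kP : ∀ g, ∀ ξ ∈ Ker π lam W Ω, π g ξ ∈ Ker π lam W Ω := by
    intro g ξ hξ S hS
    have h1 : S (π g ξ) = π g (S ξ) := congrArg (fun A : K →L[ℂ] K => A ξ) (hS.2.1 g)
    rw [h1, hξ S hS, map_zero]
  have kL : ∀ δ, ∀ ξ ∈ Ker π lam W Ω, lam δ ξ ∈ Ker π lam W Ω := by
    intro δ ξ hξ S hS
    have e1 : lam δ * lam δ⁻¹ = 1 := lam_mul_inv lam δ
    have hS' : lam δ⁻¹ * S * lam δ ∈ Ann π lam W Ω := by
      refine ⟨fun w hw => ?_, fun g => ?_, fun γ => ?_⟩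
      · calc lam δ⁻¹ * S * lam δ * w = lam δ⁻¹ * S * (lam δ * w) := by rw [mul_assoc]
          _ = lam δ⁻¹ * (S * w) * lam δ := by rw [← hWL w hw δ]; simp only [mul_assoc]
          _ = lam δ⁻¹ * (w * S) * lam δ := by rw [hS.1 w hw]
          _ = (lam δ⁻¹ * w) * S * lam δ := by simp only [mul_assoc]
          _ = w * (lam δ⁻¹ * S * lam δ) := by rw [← hWL w hw δ⁻¹]; simp only [mul_assoc]
      · calc lam δ⁻¹ * S * lam δ * π g = lam δ⁻¹ * S * (lam δ * π g) := by rw [mul_assoc]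
          _ = lam δ⁻¹ * (S * π g) * lam δ := by rw [← hcomm g δ]; simp only [mul_assoc]
          _ = lam δ⁻¹ * (π g * S) * lam δ := by rw [hS.2.1 g]
          _ = (lam δ⁻¹ * π g) * S * lam δ := by simp only [mul_assoc]
          _ = π g * (lam δ⁻¹ * S * lam δ) := by rw [← hcomm g δ⁻¹]; simp only [mul_assoc]
      · change lam δ⁻¹ (S (lam δ (lam γ Ω))) = 0
        have h1 : lam δ (lam γ Ω) = lam (δ * γ) Ω := by rw [map_mul]; rfl
        rw [h1, hS.2.2, map_zero]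
    have h1 := hξ _ hS'
    have h2 : lam δ ((lam δ⁻¹ * S * lam δ) ξ) = S (lam δ ξ) := by
      change (lam δ * (lam δ⁻¹ * S * lam δ)) ξ = (S * lam δ) ξ
      rw [← mul_assoc, ← mul_assoc, e1, one_mul]
    rw [← h2, h1, map_zero]
  -- so its projection is a scalar
  have hW : Cm W (Ker π lam W Ω).starProjection := fun w hw =>
    (comm_proj _ w (kW w hw) (kW _ (hWadj w hw))).symm
  have hL : ∀ γ, (Ker π lam W Ω).starProjection * lam γ =
      lam γ * (Ker π lam W Ω).starProjection := fun γ =>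
    (comm_proj _ (lam γ) (kL γ) (by rw [hadjL]; exact kL γ⁻¹)).symm
  have hPi : ∀ g, (Ker π lam W Ω).starProjection * π g =
      π g * (Ker π lam W Ω).starProjection := fun g =>
    (comm_proj _ (π g) (kP g) (by rw [hadjP]; exact kP g⁻¹)).symm
  have hM : Moore (Set.univ : Set E) := fun _ _ _ _ _ _ _ ξ h g => h g (mem_univ g)
  obtain ⟨z, hz⟩ := herg _ hM _ hW hL fun g _ => hPi g
  have hmem : Ω ∈ Ker π lam W Ω := fun S hS => by
    have h1 := hS.2.2 1
    rw [map_one] at h1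
    exact h1
  have h1 : (Ker π lam W Ω).starProjection Ω = Ω := Submodule.starProjection_eq_self_iff.2 hmem
  have hz1 : z = 1 := by
    rw [hz] at h1
    change z • Ω = Ω at h1
    have h2 : (z - 1) • Ω = 0 := by rw [sub_smul, one_smul, h1, sub_self]
    rcases smul_eq_zero.1 h2 with h3 | h3
    · exact sub_eq_zero.1 h3
    · rw [h3, norm_zero] at hΩ
      exact absurd hΩ zero_ne_one
  ext1 ξ
  have h2 : ξ ∈ Ker π lam W Ω := by
    rw [← Submodule.starProjection_eq_self_iff, hz, hz1, one_smul]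
    rfl
  exact h2 T hann

/-- **A picture has an invariant faithful vector state.** -/
theorem toI (h : PicX π lam W Ω) : ∃ Ω' : K, PicI π lam W Ω' := by
  obtain ⟨Ω', h1, h2⟩ := h.inv
  exact ⟨Ω', h.adjP, h.adjL, h.Wadj, h1, h2, fun T hT hTp h0 =>
    faithX h.adjP h.adjL h.comm h.Wadj h.WL h.erg h1 h2 hT hTp h0⟩

end faith

/-! ### Supports of families -/

section fam

variable {G Y E Γ X K : Type} [Group G] [TopologicalSpace Y] [MulAction G Y] [Group E]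
  [TopologicalSpace E] [Group Γ] [NormedAddCommGroup K] [InnerProductSpace ℂ K] [CompleteSpace K]
  {q : Γ → G} {π : E →* (K →L[ℂ] K)} {lam : Γ →* (K →L[ℂ] K)} {W : Set (K →L[ℂ] K)} {Ω : K}
  {Ex : X → (C(Y, ℂ) →ₗ[ℂ] (K →L[ℂ] K))}

theorem pu_cm (hP : PicI π lam W Ω) (hF : Pm.Fam q π lam W Ex) (U : Set Y) : Cm W (PU Ex U) := by
  intro w hw
  refine (comm_proj _ w ?_ ?_).symm
  · refine vu_map fun x f ζ hf => ?_
    have h1 : w (Ex x f ζ) = Ex x f (w ζ) :=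
      (congrArg (fun A : K →L[ℂ] K => A ζ) (hF.cm x f w hw)).symm
    rw [h1]
    exact vu_mem hf _
  · refine vu_map fun x f ζ hf => ?_
    have h1 : adjoint w (Ex x f ζ) = Ex x f (adjoint w ζ) :=
      (congrArg (fun A : K →L[ℂ] K => A ζ) (hF.cm x f _ (hP.Wadj w hw))).symm
    rw [h1]
    exact vu_mem hf _

theorem pu_pi (hP : PicI π lam W Ω) (hF : Pm.Fam q π lam W Ex) (U : Set Y) (g : E) :
    PU Ex U * π g = π g * PU Ex U := by
  refine (comm_proj _ (π g) (pi_mem hF U g) ?_).symm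
  rw [hP.adjP]
  exact pi_mem hF U g⁻¹

variable [ContinuousConstSMul G Y]

/-- covariance of the projections -/
theorem pu_lam (hP : PicI π lam W Ω) (hF : Pm.Fam q π lam W Ex) (U : Set Y) (γ : Γ) :
    lam γ * PU Ex (pre (q γ) U) * lam γ⁻¹ = PU Ex U := by
  ext1 ξ
  change lam γ ((VU Ex (pre (q γ) U)).starProjection (lam γ⁻¹ ξ)) = (VU Ex U).starProjection ξ
  refine ((VU Ex U).eq_starProjection_of_mem_orthogonal (lam_mem hF U γ _
    ((VU Ex (pre (q γ) U)).starProjection_apply_mem _)) ?_).symm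
  rw [Submodule.mem_orthogonal]
  intro u hu
  have h1 := (Submodule.mem_orthogonal _ _).1
    ((VU Ex (pre (q γ) U)).sub_starProjection_mem_orthogonal (lam γ⁻¹ ξ)) _
    (lam_mem' hF U γ u hu)
  have h2 : ξ = lam γ (lam γ⁻¹ ξ) :=
    (congrArg (fun A : K →L[ℂ] K => A ξ) (lam_mul_inv lam γ)).symm
  have h3 : ξ - lam γ ((VU Ex (pre (q γ) U)).starProjection (lam γ⁻¹ ξ)) =
      lam γ (lam γ⁻¹ ξ - (VU Ex (pre (q γ) U)).starProjection (lam γ⁻¹ ξ)) := by
    rw [map_sub, ← h2]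
  rw [h3, ← adjoint_inner_left, hP.adjL]
  exact h1

/-- `Γ`-invariance of the defect -/
theorem df_inv (hP : PicI π lam W Ω) (hF : Pm.Fam q π lam W Ex) (U : Set Y) (γ : Γ) :
    df Ω Ex (pre (q γ) U) = df Ω Ex U := by
  have h1 := hP.inv (PU Ex (pre (q γ) U)) (pu_cm hP hF _) (pu_pi hP hF _) γ
  rw [pu_lam hP hF U γ] at h1
  have h2 := df_sq (Ω := Ω) (Ex := Ex) U
  have h3 := df_sq (Ω := Ω) (Ex := Ex) (pre (q γ) U)
  rw [h1, ← h3] at h2
  exact ((sq_eq_sq₀ (df_nonneg _) (df_nonneg _)).1 h2).symm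

/-- equal defects give equal subspaces -/
theorem vu_eq (hP : PicI π lam W Ω) (hF : Pm.Fam q π lam W Ex) {U V : Set Y} (h : U ⊆ V)
    (he : df Ω Ex V = df Ω Ex U) : VU Ex U = VU Ex V := by
  have h1 : (PU Ex V - PU Ex U) Ω = 0 := by
    have e1 := df_sq (Ω := Ω) (Ex := Ex) U
    have e2 := df_sq (Ω := Ω) (Ex := Ex) V
    rw [he, e1] at e2
    have e3 : (⟪Ω, PU Ex U Ω⟫_ℂ).re = (⟪Ω, PU Ex V Ω⟫_ℂ).re := by linarith
    -- `PU V - PU U` is a projection
    have hUV : PU Ex V (PU Ex U Ω) = PU Ex U Ω :=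
      (Submodule.starProjection_eq_self_iff).2 (vu_mono h ((VU Ex U).starProjection_apply_mem Ω))
    have hVV : PU Ex V (PU Ex V Ω) = PU Ex V Ω :=
      (Submodule.starProjection_eq_self_iff).2 ((VU Ex V).starProjection_apply_mem Ω)
    have hUU : PU Ex U (PU Ex U Ω) = PU Ex U Ω :=
      (Submodule.starProjection_eq_self_iff).2 ((VU Ex U).starProjection_apply_mem Ω)
    have sV : ∀ a b, ⟪PU Ex V a, b⟫_ℂ = ⟪a, PU Ex V b⟫_ℂ := fun a b =>
      (VU Ex V).inner_starProjection_left_eq_right a b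
    have sU : ∀ a b, ⟪PU Ex U a, b⟫_ℂ = ⟪a, PU Ex U b⟫_ℂ := fun a b =>
      (VU Ex U).inner_starProjection_left_eq_right a b
    have h2 : ⟪PU Ex V Ω - PU Ex U Ω, PU Ex V Ω - PU Ex U Ω⟫_ℂ =
        ⟪Ω, PU Ex V Ω⟫_ℂ - ⟪Ω, PU Ex U Ω⟫_ℂ := by
      rw [inner_sub_left, inner_sub_right, inner_sub_right, sV, sV, hVV, hUV, sU, sU, hUU]
      have h3 : ⟪Ω, PU Ex U (PU Ex V Ω)⟫_ℂ = ⟪Ω, PU Ex U Ω⟫_ℂ := by
        rw [← sU, ← sV, hUV, sU]
      rw [h3]
      ring
    have h4 := congrArg Complex.re h2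
    rw [Complex.sub_re, e3, sub_self] at h4
    have h5 : (⟪PU Ex V Ω - PU Ex U Ω, PU Ex V Ω - PU Ex U Ω⟫_ℂ).re =
        ‖PU Ex V Ω - PU Ex U Ω‖ ^ 2 := inner_self_eq_norm_sq (𝕜 := ℂ) _
    rw [h5] at h4
    exact norm_eq_zero.1 (pow_eq_zero_iff two_ne_zero |>.1 h4)
  have h2 : PU Ex V - PU Ex U = 0 := by
    refine hP.faith _ ?_ ?_ h1
    · intro w hw
      rw [sub_mul, mul_sub, pu_cm hP hF V w hw, pu_cm hP hF U w hw]
    · intro g
      rw [sub_mul, mul_sub, pu_pi hP hF V g, pu_pi hP hF U g]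
  refine le_antisymm (vu_mono h) fun ξ hξ => ?_
  have h3 : PU Ex V ξ = PU Ex U ξ := by
    have := congrArg (fun A : K →L[ℂ] K => A ξ) (sub_eq_zero.1 h2)
    exact this
  have h4 : PU Ex V ξ = ξ := Submodule.starProjection_eq_self_iff.2 hξ
  rw [← h4, h3]
  exact (VU Ex U).starProjection_apply_mem ξ

end fam

/-! ### Surjectivity and exclusion -/

section main

variable {E₀ Γ K H Y Y' Z Z' : Type} [Group E₀] [TopologicalSpace E₀] [Group Γ]
  [NormedAddCommGroup K] [InnerProductSpace ℂ K] [CompleteSpace K] [TopologicalSpace Y]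
  [CompactSpace Y] [T2Space Y] [Group H] [MulAction H Y] [ContinuousConstSMul H Y]
  {π : E₀ →* (K →L[ℂ] K)} {lam : Γ →* (K →L[ℂ] K)} {W : Set (K →L[ℂ] K)} {Ω : K} {q : Γ → H}
  {p : ℝ} {E : Z → (C(Y, ℂ) →ₗ[ℂ] (K →L[ℂ] K))} {Op : Y' → Set Y}

/-- no open set has a defect bigger than that of a cell -/
theorem df_cell (hP : PicI π lam W Ω) (hF : Pm.Fam q π lam W E) (hx : Prx q Op) {U : Set Y}
    (hU : IsOpen U) (hne : U.Nonempty) (a : Y') : Pm.df Ω E U ≤ Pm.df Ω E (Op a) := by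
  refine le_of_forall_pos_le_add fun ε hε => ?_
  obtain ⟨D, hD, hDU, hV⟩ := Pm.df_semi (Ω := Ω) (Ex := E) (Op a) hε
  obtain ⟨γ, hγ⟩ := hx.prox a D hDU hD U hU hne
  have h1 := hV (Pm.pre (q γ) U) (fun y hy => hγ y hy)
  rwa [df_inv hP hF] at h1

theorem vu_cell (hP : PicI π lam W Ω) (hF : Pm.Fam q π lam W E) (hx : Prx q Op) {U : Set Y}
    (hU : IsOpen U) (hne : U.Nonempty) {a : Y'} (h : U ⊆ Op a) :
    Pm.VU E U = Pm.VU E (Op a) :=
  vu_eq hP hF h (le_antisymm (Pm.df_mono h) (df_cell hP hF hx hU hne a))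

theorem vu_cells (hP : PicI π lam W Ω) (hF : Pm.Fam q π lam W E) (hx : Prx q Op) (a b : Y') :
    Pm.VU E (Op a) = Pm.VU E (Op b) :=
  (vu_cell hP hF hx ((hx.op a).inter (hx.op b)) (hx.meet a b) inter_subset_left).symm.trans
    (vu_cell hP hF hx ((hx.op a).inter (hx.op b)) (hx.meet a b) inter_subset_right)

theorem cell_le (hP : PicI π lam W Ω) (hF : Pm.Fam q π lam W E) (hx : Prx q Op) {U : Set Y}
    (hU : IsOpen U) (hne : U.Nonempty) (a : Y') : Pm.VU E (Op a) ≤ Pm.VU E U := by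
  obtain ⟨y, hy⟩ := hne
  obtain ⟨b, hb⟩ := hx.all y
  have h1 := vu_cell hP hF hx (hU.inter (hx.op b)) ⟨y, hy, hb⟩ inter_subset_right
  rw [vu_cells hP hF hx a b, ← h1]
  exact Pm.vu_mono inter_subset_left

theorem cell_top (hP : PicI π lam W Ω) (hE : Fam π lam W q p E) (hp : p ≠ 0) [Nonempty Z]
    (hx : Prx q Op) (a : Y') : Pm.VU E (Op a) = ⊤ := by
  have hF := hE.pm hp
  obtain ⟨z⟩ := ‹Nonempty Z›
  -- a finite subcover
  obtain ⟨t, ht⟩ := isCompact_univ.elim_finite_subcover Op hx.op (fun y _ => by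
    obtain ⟨b, hb⟩ := hx.all y
    exact mem_iUnion.2 ⟨b, hb⟩)
  obtain ⟨f, hf⟩ := PartitionOfUnity.exists_isSubordinate (ι := t) (isClosed_univ (X := Y))
    (fun i => Op i) (fun i => hx.op i) (fun y hy => by
      obtain ⟨b, hb, hyb⟩ := mem_iUnion₂.1 (ht hy)
      exact mem_iUnion.2 ⟨⟨b, hb⟩, hyb⟩)
  have h1 : (1 : C(Y, ℂ)) = ∑ i : t, cx (f i) := by
    ext y
    have h2 := f.sum_eq_one (mem_univ y)
    rw [finsum_eq_sum_of_fintype] at h2
    rw [ContinuousMap.coe_sum, Finset.sum_apply]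
    change (1 : ℂ) = ∑ i : t, ((f i y : ℝ) : ℂ)
    rw [← Complex.ofReal_sum, h2, Complex.ofReal_one]
  rw [eq_top_iff]
  intro ζ _
  have h2 : E z 1 ζ ∈ Pm.VU E (Op a) := by
    rw [h1, map_sum, sum_apply]
    refine Submodule.sum_mem _ fun i _ => ?_
    rw [vu_cells hP hF hx a i]
    refine Pm.vu_mem ?_ ζ
    rw [tsupp_cx]
    exact hf i
  rw [(hE.ul z).one] at h2
  have h3 : (p : ℂ) ≠ 0 := by exact_mod_cast hp
  have h4 := Submodule.smul_mem _ ((p : ℂ)⁻¹) h2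
  have h5 : ((p : ℂ)⁻¹) • (((p : ℂ) • (1 : K →L[ℂ] K)) ζ) = ζ := by
    change ((p : ℂ)⁻¹) • ((p : ℂ) • ζ) = ζ
    rw [inv_smul_smul₀ h3]
  rwa [h5] at h4

/-- **Surjectivity**: the ranges of the functions supported in an open set span. -/
theorem vu_top (hP : PicI π lam W Ω) (hp : p ≠ 0) [Nonempty Z] (hE : Fam π lam W q p E)
    (hx : Prx q Op) {U : Set Y} (hU : IsOpen U) (hne : U.Nonempty) : Pm.VU E U = ⊤ := by
  obtain ⟨y, hy⟩ := hne
  obtain ⟨a, ha⟩ := hx.all y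
  rw [eq_top_iff, ← cell_top hP hE hp hx a]
  exact cell_le hP (hE.pm hp) hx hU ⟨y, hy⟩ a

/-- **Surjectivity**, dual form: an operator which annihilates the range of all functions with
support in one nonempty open set is zero. -/
theorem surj (hP : PicI π lam W Ω) (hp : p ≠ 0) [Nonempty Z] (hE : Fam π lam W q p E)
    (hx : Prx q Op) {U : Set Y} (hU : IsOpen U) (hne : U.Nonempty) {T : K →L[ℂ] K}
    (hT : ∀ z (f : C(Y, ℂ)), tsupport f ⊆ U → T * E z f = 0) : T = 0 := by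
  have h1 : Pm.SU E U ≤ LinearMap.ker (T : K →ₗ[ℂ] K) := by
    unfold Pm.SU
    rw [Submodule.span_le]
    rintro _ ⟨z, f, ζ, hf, rfl⟩
    exact congrArg (fun A : K →L[ℂ] K => A ζ) (hT z f hf)
  have h2 : IsClosed ((LinearMap.ker (T : K →ₗ[ℂ] K) : Submodule ℂ K) : Set K) :=
    (isClosed_singleton (x := (0 : K))).preimage T.continuous
  have h3 : Pm.VU E U ≤ LinearMap.ker (T : K →ₗ[ℂ] K) :=
    Submodule.topologicalClosure_minimal _ h1 h2
  rw [vu_top hP hp hE hx hU hne] at h3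
  ext1 ζ
  exact h3 (Submodule.mem_top (x := ζ))

/-- **Exclusion**: the product of two families of positive mass does not vanish on a pair of
nonempty open sets. -/
theorem excl (hP : PicI π lam W Ω) [Nonempty Z] [Nonempty Z'] {q' : ℝ}
    {F : Z' → (C(Y, ℂ) →ₗ[ℂ] (K →L[ℂ] K))} (hE : Fam π lam W q p E) (hF : Fam π lam W q q' F)
    (hx : Prx q Op) {U U' : Set Y} (hU : IsOpen U) (hne : U.Nonempty) (hU' : IsOpen U')
    (hne' : U'.Nonempty)
    (h0 : ∀ z z' (f g : C(Y, ℂ)), tsupport f ⊆ U → tsupport g ⊆ U' → E z f * F z' g = 0) :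
    p = 0 ∨ q' = 0 := by
  by_contra hc
  rw [not_or] at hc
  have h1 : ∀ z (f : C(Y, ℂ)), tsupport f ⊆ U → (1 : K →L[ℂ] K) * E z f = 0 := by
    intro z f hf
    rw [one_mul]
    exact surj hP hc.2 hF hx hU' hne' fun z' g hg => h0 z z' f g hf hg
  have h2 := surj hP hc.1 hE hx hU hne h1
  have h3 : Ω = 0 := congrArg (fun A : K →L[ℂ] K => A Ω) h2
  have h4 := hP.nΩ
  rw [h3, norm_zero] at h4
  exact zero_ne_one h4

end main

end Vale.Agent.P092.SP.X
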