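import Vale.Agent.P092.H494.PAgr
import Vale.Agent.P092.H962.C.Amp

/-!
P092, TEAM P, all amplifications (helper421): row [P-AGR] (H494/PAgr of helper494) for a finite
family of vectors in the place of the trace vector.
-/

set_option linter.all false

open scoped InnerProductSpace
open ContinuousLinearMap

namespace Vale.Agent.P092.SP.X

open Vale.Agent.P092.RC (Cm TRN Moore PicF)
open Vale.Agent.P092.H76.Pur (NIS Cov Inv UCP)
open Vale.Agent.P092.H411 (Nrm agr_dich nrm_cov')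
open Vale.Agent.P092.SP (UL)
open Vale.Agent.P092.H494.PAg (ul_le_one ul_ucp comm_closure comm_of_conj)

variable {G Γ K κ : Type} [Group G] [TopologicalSpace G] [Group Γ] [NormedAddCommGroup K]
  [InnerProductSpace ℂ K] [CompleteSpace K] [Fintype κ]
  {π : G →* (K →L[ℂ] K)} {lam : Γ →* (K →L[ℂ] K)} {W : Set (K →L[ℂ] K)} {Ω : κ → K}
  {Y : Type*} [TopologicalSpace Y] [CompactSpace Y]

/-- a covariant limit map which commutes with `π` does not exist -/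
theorem no_constF (hp : PicF π lam W Ω) {E : C(Y, ℂ) →ₗ[ℂ] (K →L[ℂ] K)} {p : ℝ} (hE : UL E p)
    (hp0 : p ≠ 0) {act : Γ → Y → Y} (hNI : NIS act) (cm : ∀ f, Cm W (E f))
    (cov : Cov act lam E) (hπ : ∀ f g, E f * π g = π g * E f) : False := by
  obtain ⟨n, Ω', h1, hinv⟩ := hp.inv
  -- a unit vector
  obtain ⟨v, hv⟩ : ∃ v : K, ‖v‖ = 1 := by
    have h2 : ∃ i, Ω' i ≠ 0 := by
      by_contra h
      push Not at h
      simp [h] at h1
    obtain ⟨i, hi⟩ := h2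
    exact ⟨((‖Ω' i‖⁻¹ : ℝ) : ℂ) • Ω' i, by
      rw [norm_smul, Complex.norm_real, norm_inv, norm_norm,
        inv_mul_cancel₀ (norm_ne_zero_iff.2 hi)]⟩
  have hU := ul_ucp hE hv
  have hp1 : 0 < p := lt_of_le_of_ne (ul_le_one hE hv).1 (Ne.symm hp0)
  have hs : ∑ i, ⟪Ω' i, Ω' i⟫_ℂ = 1 := by
    have e : ∀ i, ⟪Ω' i, Ω' i⟫_ℂ = ((‖Ω' i‖ ^ 2 : ℝ) : ℂ) := fun i => by
      rw [inner_self_eq_norm_sq_to_K]
      push_cast
      rfl
    simp only [e]
    rw [← Complex.ofReal_sum, h1, Complex.ofReal_one]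
  obtain ⟨φ, hφ⟩ : ∃ φ : C(Y, ℂ) →ₗ[ℂ] ℂ, ∀ f, φ f = (p : ℂ)⁻¹ * ∑ i, ⟪Ω' i, E f (Ω' i)⟫_ℂ := by
    refine ⟨{ toFun := fun f => (p : ℂ)⁻¹ * ∑ i, ⟪Ω' i, E f (Ω' i)⟫_ℂ, map_add' := fun f g => ?_,
              map_smul' := fun a f => ?_ }, fun f => rfl⟩
    · rw [← mul_add, ← Finset.sum_add_distrib]
      congr 1
      refine Finset.sum_congr rfl fun i _ => ?_
      rw [map_add, ContinuousLinearMap.add_apply, inner_add_right]
    · rw [RingHom.id_apply, smul_eq_mul, mul_left_comm]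
      refine congrArg (fun z : ℂ => (p : ℂ)⁻¹ * z) ?_
      rw [Finset.mul_sum]
      refine Finset.sum_congr rfl fun i _ => ?_
      rw [map_smul, ContinuousLinearMap.smul_apply, inner_smul_right]
  refine hNI φ (fun f => ?_) ?_ (fun γ f f' hff' => ?_)
  · rw [hφ]
    have e2 : (p : ℂ)⁻¹ = ((p⁻¹ : ℝ) : ℂ) := by rw [Complex.ofReal_inv]
    rw [e2, Complex.re_ofReal_mul, Complex.re_sum]
    exact mul_nonneg (inv_nonneg.2 hp1.le) (Finset.sum_nonneg fun i _ =>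
      (sq_nonneg _).trans (hU.sch f (Ω' i)))
  · rw [hφ, hE.one]
    have e : ∀ i, ⟪Ω' i, ((p : ℂ) • (1 : K →L[ℂ] K)) (Ω' i)⟫_ℂ = (p : ℂ) * ⟪Ω' i, Ω' i⟫_ℂ := by
      intro i
      change ⟪Ω' i, (p : ℂ) • Ω' i⟫_ℂ = _
      rw [inner_smul_right]
    simp only [e]
    rw [← Finset.mul_sum, hs, mul_one, inv_mul_cancel₀ (by exact_mod_cast hp0)]
  · rw [hφ, hφ, ← cov γ f f' hff', hinv (E f) (fun w hw => cm f w hw) (fun g => hπ f g) γ]

/-- **[P-AGR], two maps.** The alternative: equal, or they agree nowhere. -/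
theorem agr_altF (hp : PicF π lam W Ω) {A B : C(Y, ℂ) →ₗ[ℂ] (K →L[ℂ] K)}
    (cmA : ∀ f, Cm W (A f)) (cmB : ∀ f, Cm W (B f)) {act : Γ → Y → Y}
    (hact : ∀ γ, ∀ f : C(Y, ℂ), ∃ f' : C(Y, ℂ), ∀ x, f' (act γ x) = f x)
    (covA : Cov act lam A) (covB : Cov act lam B) {S : Set G} (hS : Moore S)
    (hA : ∀ g ∈ S, ∀ f, A f * π g = π g * A f) (hB : ∀ g ∈ S, ∀ f, B f * π g = π g * B f) :
    (∀ f, A f = B f) ∨ ∀ ζ, (∀ f, A f ζ = B f ζ) → ζ = 0 := by
  have hl1 : ∀ γ, lam γ * lam γ⁻¹ = 1 := fun γ => by rw [← map_mul, mul_inv_cancel, map_one]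
  refine agr_dich (β₁ := fun f => A f) (β₂ := fun f => B f)
    (𝒮 := W ∪ Set.range lam ∪ π '' S) ?_ ?_
  · intro T hT
    exact hp.erg _ hS T (fun w hw => hT w (Or.inl (Or.inl hw)))
      (fun γ => hT _ (Or.inl (Or.inr ⟨γ, rfl⟩))) fun g hg => hT _ (Or.inr ⟨g, hg, rfl⟩)
  · rintro T ((hw | ⟨γ, rfl⟩) | ⟨g, hg, rfl⟩)
    · exact ⟨Nrm.of_comm (fun F => cmA F T hw) fun F => cmB F T hw,
        Nrm.of_comm (fun F => cmA F _ (hp.Wadj T hw)) fun F => cmB F _ (hp.Wadj T hw)⟩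
    · have e : ∀ γ : Γ, Nrm (fun F => A F) (fun F => B F) (lam γ) := by
        intro γ
        choose σ hσ using hact γ⁻¹
        have h1 : lam γ⁻¹ * lam γ = 1 := by rw [← map_mul, inv_mul_cancel, map_one]
        refine nrm_cov' (hl1 γ) h1 (σ := σ) (fun F => ?_) fun F => ?_
        · have := covA γ⁻¹ F (σ F) (hσ F)
          rw [inv_inv] at this
          rw [← this, mul_assoc, mul_assoc, hl1, mul_one]
        · have := covB γ⁻¹ F (σ F) (hσ F)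
          rw [inv_inv] at this
          rw [← this, mul_assoc, mul_assoc, hl1, mul_one]
      refine ⟨e γ, ?_⟩
      rw [hp.adjL]
      exact e γ⁻¹
    · refine ⟨Nrm.of_comm (fun F => hA g hg F) fun F => hB g hg F, ?_⟩
      rw [hp.adjP]
      have hg' : g⁻¹ ∈ Subgroup.closure S := inv_mem (Subgroup.subset_closure hg)
      exact Nrm.of_comm (fun F => comm_closure (fun x hx => hA x hx F) _ hg')
        fun F => comm_closure (fun x hx => hB x hx F) _ hg'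

/-- **[P-AGR], two maps.** `S` = the stabiliser of both vertices, `S₁`, `S₂` the stabilisers. -/
theorem agr_twoF (hp : PicF π lam W Ω) {A B : C(Y, ℂ) →ₗ[ℂ] (K →L[ℂ] K)} {p : ℝ} (hUA : UL A p)
    (hp0 : p ≠ 0) (cmA : ∀ f, Cm W (A f)) (cmB : ∀ f, Cm W (B f)) {act : Γ → Y → Y}
    (hact : ∀ γ, ∀ f : C(Y, ℂ), ∃ f' : C(Y, ℂ), ∀ x, f' (act γ x) = f x) (hNI : NIS act)
    (covA : Cov act lam A) (covB : Cov act lam B) {S S₁ S₂ : Set G} (hS : Moore S)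
    (h1 : S ⊆ S₁) (h2 : S ⊆ S₂) (hA : ∀ g ∈ S₁, ∀ f, A f * π g = π g * A f)
    (hB : ∀ g ∈ S₂, ∀ f, B f * π g = π g * B f)
    (hgen : Subgroup.closure (S₁ ∪ S₂) = ⊤) : ∀ ζ, (∀ f, A f ζ = B f ζ) → ζ = 0 := by
  refine (agr_altF hp cmA cmB hact covA covB hS (fun g hg => hA g (h1 hg))
    fun g hg => hB g (h2 hg)).resolve_left fun he => ?_
  refine no_constF hp hUA hp0 hNI cmA covA fun f g => ?_
  refine comm_closure (S := S₁ ∪ S₂) (fun x hx => ?_) g (by rw [hgen]; exact Subgroup.mem_top g)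
  rcases hx with hx | hx
  · exact hA x hx f
  · rw [he f]
    exact hB x hx f

section fam

variable {H I : Type*} [Group H] [MulAction H I]

/-- **[P-AGR], families.** `H` = the group acting on the source vertices, `ι : H →* G` onto. The
families may be different (two ultrafilters). -/
theorem agr_fam₂F (hp : PicF π lam W Ω) (ι : H →* G) (hι : Function.Surjective ι)
    {E F : I → (C(Y, ℂ) →ₗ[ℂ] (K →L[ℂ] K))} {p : ℝ} (hE : ∀ X, UL (E X) p)
    (hp0 : p ≠ 0) (cmE : ∀ X f, Cm W (E X f)) (cmF : ∀ X f, Cm W (F X f)) {act : Γ → Y → Y}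
    (hact : ∀ γ, ∀ f : C(Y, ℂ), ∃ f' : C(Y, ℂ), ∀ x, f' (act γ x) = f x) (hNI : NIS act)
    (covE : ∀ X, Cov act lam (E X)) (covF : ∀ X, Cov act lam (F X))
    (pcE : ∀ h X f, π (ι h) * E X f * π (ι h)⁻¹ = E (h • X) f)
    (pcF : ∀ h X f, π (ι h) * F X f * π (ι h)⁻¹ = F (h • X) f) {X X' : I}
    (hS : Moore (ι '' {h | h • X = X ∧ h • X' = X'}))
    (hgen : Subgroup.closure ({h : H | h • X = X} ∪ {h : H | h • X' = X'}) = ⊤) :
    ∀ ζ, (∀ f, E X f ζ = F X' f ζ) → ζ = 0 := by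
  refine agr_twoF hp (hE X) hp0 (cmE X) (cmF X') hact hNI (covE X) (covF X') hS
    (S₁ := ι '' {h | h • X = X}) (S₂ := ι '' {h | h • X' = X'}) (Set.image_mono fun h hh => hh.1)
    (Set.image_mono fun h hh => hh.2) ?_ ?_ ?_
  · rintro _ ⟨h, hh, rfl⟩ f
    exact comm_of_conj (pcE h X f) (by rw [show h • X = X from hh])
  · rintro _ ⟨h, hh, rfl⟩ f
    exact comm_of_conj (pcF h X' f) (by rw [show h • X' = X' from hh])
  · rw [← Set.image_union, ← MonoidHom.map_closure, hgen]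
    exact Subgroup.map_top_of_surjective ι hι

/-- **[P-AGR]** -/
theorem agr_famF (hp : PicF π lam W Ω) (ι : H →* G) (hι : Function.Surjective ι)
    {E : I → (C(Y, ℂ) →ₗ[ℂ] (K →L[ℂ] K))} {p : ℝ} (hE : ∀ X, UL (E X) p)
    (hp0 : p ≠ 0) (cm : ∀ X f, Cm W (E X f)) {act : Γ → Y → Y}
    (hact : ∀ γ, ∀ f : C(Y, ℂ), ∃ f' : C(Y, ℂ), ∀ x, f' (act γ x) = f x) (hNI : NIS act)
    (cov : ∀ X, Cov act lam (E X))
    (pcov : ∀ h X f, π (ι h) * E X f * π (ι h)⁻¹ = E (h • X) f) {X X' : I}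
    (hS : Moore (ι '' {h | h • X = X ∧ h • X' = X'}))
    (hgen : Subgroup.closure ({h : H | h • X = X} ∪ {h : H | h • X' = X'}) = ⊤) :
    ∀ ζ, (∀ f, E X f ζ = E X' f ζ) → ζ = 0 :=
  agr_fam₂F hp ι hι hE hp0 cm cm hact hNI cov cov pcov pcov hS hgen

end fam

end Vale.Agent.P092.SP.X
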