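import Vale.Agent.P092.H494.PI2
import Vale.Agent.P092.H958.AmpD

/-!
P092, TEAM P, all amplifications (helper421): exact incidence (rows H494/PI1, PI2 of helper494) for
a finite family of vectors in the place of the trace vector.
-/

set_option linter.all false

open scoped InnerProductSpace ENNReal ComplexOrder
open Filter Topology ContinuousLinearMap

namespace Vale.Agent.P092.SP.X

open Vale.Agent.P092.RC (Cm TRN Moore PicF TRNF)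
open Vale.Agent.P092.SD (Ms MsF)
open Vale.Agent.P092.H494.PI (exists_sqrt enorm_sq re_adj_mul adj_mul_nonneg cm_mul cm_adj cm_conj
  wlim_cm unitary_norm ms_parseval ms_lam ms_om Dg)
open Vale.Agent.P092.H494.PW

section main

variable {G Γ K κ : Type} [Group G] [TopologicalSpace G] [Group Γ] [NormedAddCommGroup K]
  [InnerProductSpace ℂ K] [CompleteSpace K] [Fintype κ] {π : G →* (K →L[ℂ] K)}
  {lam : Γ →* (K →L[ℂ] K)} {W : Set (K →L[ℂ] K)} {Ω : κ → K} {m : Set Γ → (K →L[ℂ] K)}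

theorem trnF_eq (T : K →L[ℂ] K) : TRNF lam Ω T = ∑' γ, ∑ i, ‖T (lam γ (Ω i))‖ₑ ^ 2 := by
  rw [Summable.tsum_finsetSum fun _ _ => ENNReal.summable]
  rfl

/-- **lower semicontinuity of the trace** -/
theorem trn_limF {ι : Type*} {l : Filter ι} {a : ι → (K →L[ℂ] K)} {T e X : K →L[ℂ] K}
    (h : WLim l (fun i => adjoint (a i) * a i) T) (he : adjoint e = e) (he2 : e * e = T)
    {N : ℝ≥0∞} (hN : ∃ᶠ i in l, TRNF lam Ω (a i * X) ≤ N) : TRNF lam Ω (e * X) ≤ N := by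
  rcases eq_or_ne N ∞ with rfl | hN'
  · exact le_top
  rw [trnF_eq, ENNReal.tsum_eq_iSup_sum]
  refine iSup_le fun F => ?_
  have e1 : ∀ (b : K →L[ℂ] K), ∑ γ ∈ F, ∑ i, ‖(b * X) (lam γ (Ω i))‖ₑ ^ 2 =
      ENNReal.ofReal (∑ γ ∈ F, ∑ i, ‖b (X (lam γ (Ω i)))‖ ^ 2) := fun b => by
    rw [ENNReal.ofReal_sum_of_nonneg fun γ _ => Finset.sum_nonneg fun i _ => sq_nonneg _]
    refine Finset.sum_congr rfl fun γ _ => ?_
    rw [ENNReal.ofReal_sum_of_nonneg fun i _ => sq_nonneg _]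
    exact Finset.sum_congr rfl fun i _ => enorm_sq _
  rw [e1]
  have h1 : Tendsto (fun i => ∑ γ ∈ F, ∑ j, ‖a i (X (lam γ (Ω j)))‖ ^ 2) l
      (𝓝 (∑ γ ∈ F, ∑ j, ‖e (X (lam γ (Ω j)))‖ ^ 2)) := by
    refine tendsto_finset_sum _ fun γ _ => tendsto_finset_sum _ fun j _ => ?_
    have h2 := h.re (X (lam γ (Ω j))) (X (lam γ (Ω j)))
    have h3 : T = adjoint e * e := by rw [he, he2]
    rw [h3, re_adj_mul] at h2
    exact h2.congr fun i => re_adj_mul _ _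
  have h4 : ∃ᶠ i in l, ∑ γ ∈ F, ∑ j, ‖a i (X (lam γ (Ω j)))‖ ^ 2 ≤ N.toReal := by
    refine hN.mono fun i hi => ?_
    have h5 : ∑ γ ∈ F, ∑ j, ‖(a i * X) (lam γ (Ω j))‖ₑ ^ 2 ≤ N := by
      rw [trnF_eq] at hi
      exact (ENNReal.sum_le_tsum F).trans hi
    rw [e1] at h5
    exact (ENNReal.ofReal_le_iff_le_toReal hN').1 h5
  exact (ENNReal.ofReal_le_iff_le_toReal hN').2 (le_of_tendsto_of_frequently h1 h4)

/-- **[P-I1], abstract form, families.** -/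
theorem i1_zeroF (hp : PicF π lam W Ω) {ι κ' : Type*} {l : Filter ι} [l.NeBot] {l' : Filter κ'}
    [l'.NeBot] {a : ι → (K →L[ℂ] K)} {b : κ' → (K →L[ℂ] K)} {E F : K →L[ℂ] K}
    (ha : ∀ i, Cm W (a i)) (hb : ∀ j, Cm W (b j))
    (hE : WLim l (fun i => adjoint (a i) * a i) E)
    (hF : WLim l' (fun j => adjoint (b j) * b j) F) {N : ℝ≥0∞} (hN : N < ∞)
    (h : ∃ᶠ j in l', ∃ᶠ i in l, TRNF lam Ω (a i * adjoint (b j)) ≤ N)
    {S : Set G} (hS : Moore S) (hES : ∀ g ∈ S, E * π g = π g * E)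
    (hFS : ∀ g ∈ S, F * π g = π g * F) : E * F = 0 := by
  have hE0 : 0 ≤ E := hE.nonneg (Eventually.of_forall fun i => adj_mul_nonneg _)
  have hF0 : 0 ≤ F := hF.nonneg (Eventually.of_forall fun i => adj_mul_nonneg _)
  obtain ⟨e, he, he2, hec⟩ := exists_sqrt hE0
  obtain ⟨f, hf, hf2, hfc⟩ := exists_sqrt hF0
  have hEW : Cm W E := wlim_cm hE (Eventually.of_forall fun i =>
    cm_mul (cm_adj hp.Wadj (ha i)) (ha i))
  have hFW : Cm W F := wlim_cm hF (Eventually.of_forall fun i =>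
    cm_mul (cm_adj hp.Wadj (hb i)) (hb i))
  have heW : Cm W e := fun w hw => hec w (hEW w hw)
  have hfW : Cm W f := fun w hw => hfc w (hFW w hw)
  have h1 : ∃ᶠ j in l', TRNF lam Ω (b j * e) ≤ N := by
    refine h.mono fun j hj => ?_
    have h2 := trn_limF (X := adjoint (b j)) hE he he2 hj
    rw [← hp.tr_adj _ (cm_mul heW (cm_adj hp.Wadj (hb j)))] at h2
    have h3 : adjoint (e * adjoint (b j)) = b j * e := by
      change adjoint (e.comp (adjoint (b j))) = _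
      rw [adjoint_comp, adjoint_adjoint, he]
      rfl
    rwa [h3] at h2
  have h4 : TRNF lam Ω (f * e) ≤ N := trn_limF (X := e) hF hf hf2 h1
  have h5 : f * e = 0 := by
    refine hp.hs_erg S hS _ (cm_mul hfW heW) (h4.trans_lt hN) fun g hg => ?_
    rw [mul_assoc, hec _ (hES g hg), ← mul_assoc, hfc _ (hFS g hg), mul_assoc]
  have h6 : e * f = 0 := by
    have h7 := congrArg adjoint h5
    rw [map_zero] at h7
    rw [← h7]
    change _ = adjoint (f.comp e)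
    rw [adjoint_comp, he, hf]
    rfl
  calc E * F = e * (e * f) * f := by rw [← he2, ← hf2]; simp only [mul_assoc]
    _ = 0 := by rw [h6, mul_zero, zero_mul]

theorem msF_empty (h : MsF lam W Ω m) : m ∅ = 0 := by
  have h1 : m Set.univ * m ∅ = m ∅ := by rw [← h.inf, Set.univ_inter]
  have h2 : m Set.univ = 1 - m ∅ := by rw [← Set.compl_empty, h.compl]
  have h3 : m ∅ * m ∅ = m ∅ := by rw [← h.inf, Set.empty_inter]
  rw [h2, sub_mul, one_mul, h3, sub_self] at h1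
  exact h1.symm

theorem msF_ap (h : MsF lam W Ω m) {ξ : K} (hξ : m {1} ξ = ξ) (S : Set Γ) :
    (1 ∈ S ∧ m S ξ = ξ) ∨ (1 ∉ S ∧ m S ξ = 0) := by
  have h1 : m S ξ = m (S ∩ {1}) ξ := by
    rw [h.inf]
    change _ = m S (m {1} ξ)
    rw [hξ]
  by_cases h2 : (1 : Γ) ∈ S
  · left
    refine ⟨h2, ?_⟩
    rw [h1, Set.inter_eq_right.2 (Set.singleton_subset_iff.2 h2), hξ]
  · right
    refine ⟨h2, ?_⟩
    have h3 : S ∩ {1} = ∅ := by
      rw [Set.eq_empty_iff_forall_notMem]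
      rintro x ⟨hx, rfl⟩
      exact h2 hx
    rw [h1, h3, msF_empty h]
    rfl

/-- every vector of the family is the vector of a picture with more constant operators -/
theorem ms_wk (h : MsF lam W Ω m) {ω : K} (hω : m {1} ω = ω) (h0 : ω ≠ 0) :
    ∃ W' : Set (K →L[ℂ] K), Ms lam W' ω m := by
  refine ⟨{T | ∀ S, T * m S = m S * T}, h.adj, h.inf, h.compl, fun S w hw => (hw S).symm, h.cov,
    hω, h.fin, fun ξ hξ => subset_closure (Submodule.subset_span ?_)⟩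
  have h2 : ⟪ω, ω⟫_ℂ ≠ 0 := fun h3 => h0 (inner_self_eq_zero.1 h3)
  refine ⟨(innerSL ℂ ω).smulRight ((⟪ω, ω⟫_ℂ)⁻¹ • ξ), StarAlgebra.subset_adjoin ℂ _ fun S => ?_,
    ?_⟩
  · ext v
    change ⟪ω, m S v⟫_ℂ • ((⟪ω, ω⟫_ℂ)⁻¹ • ξ) = m S (⟪ω, v⟫_ℂ • ((⟪ω, ω⟫_ℂ)⁻¹ • ξ))
    rw [← adjoint_inner_left, h.adj, map_smul, map_smul]
    rcases msF_ap h hω S with h3 | h3 <;> rcases msF_ap h hξ S with h4 | h4
    · rw [h3.2, h4.2]
    · exact absurd h3.1 h4.1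
    · exact absurd h4.1 h3.1
    · rw [h3.2, h4.2, inner_zero_left, zero_smul, smul_zero, smul_zero]
  · change ξ = ⟪ω, ω⟫_ℂ • ((⟪ω, ω⟫_ℂ)⁻¹ • ξ)
    rw [smul_smul, mul_inv_cancel₀ h2, one_smul]

/-- the trace of the product of two conjugated diagonal operators, one vector -/
theorem trn_dg1 (hP : ∀ g, adjoint (π g) = π g⁻¹) (hL : ∀ γ, adjoint (lam γ) = lam γ⁻¹)
    (hcomm : ∀ g γ, π g * lam γ = lam γ * π g) {ω : K}
    (hM : Ms lam W ω m) {f g : Γ → ℂ} {X Y : K →L[ℂ] K} (hX : Dg m f X) (hY : Dg m g Y)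
    {c : ℝ≥0∞} (hc : ∀ ξ, ∑' γ, ‖g γ‖ₑ ^ 2 * ‖f (γ * ξ)‖ₑ ^ 2 ≤ c) (v z : G) :
    TRN lam ω (π v * (X * π z * adjoint Y)) ≤ c * ‖ω‖ₑ ^ 2 := by
  have e3 : ∀ γ, ‖(π v * (X * π z * adjoint Y)) (lam γ ω)‖ₑ ^ 2 =
      ∑' ξ, ‖g γ‖ₑ ^ 2 * ‖f (γ * ξ)‖ₑ ^ 2 * ‖m {ξ} (π z ω)‖ₑ ^ 2 := fun γ => by
    have h1 : ‖(π v * (X * π z * adjoint Y)) (lam γ ω)‖ₑ =
        ‖g γ‖ₑ * ‖X (lam γ (π z ω))‖ₑ := by
      change ‖π v (X (π z (adjoint Y (lam γ ω))))‖ₑ = _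
      rw [← ofReal_norm_eq_enorm, unitary_norm hP, ofReal_norm_eq_enorm, hY.adj_om hM, map_smul,
        map_smul, enorm_smul]
      congr 1
      · rw [← ofReal_norm_eq_enorm, RCLike.norm_conj, ofReal_norm_eq_enorm]
      · change ‖X ((π z * lam γ) ω)‖ₑ = _
        rw [hcomm]
        rfl
    rw [h1, mul_pow, hX.norm_sq hM, ← ENNReal.tsum_mul_left,
      ← (Equiv.mulLeft γ).tsum_eq]
    refine tsum_congr fun ξ => ?_
    have h2 : ‖m {γ * ξ} (lam γ (π z ω))‖ₑ = ‖m {ξ} (π z ω)‖ₑ := by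
      change ‖(m {γ * ξ} * lam γ) (π z ω)‖ₑ = _
      rw [ms_lam hM]
      change ‖lam γ (m {ξ} (π z ω))‖ₑ = _
      rw [← ofReal_norm_eq_enorm, unitary_norm hL, ofReal_norm_eq_enorm]
    simp only [Equiv.coe_mulLeft]
    rw [h2, mul_assoc]
  rw [TRN, tsum_congr e3, ENNReal.tsum_comm]
  calc ∑' ξ, ∑' γ, ‖g γ‖ₑ ^ 2 * ‖f (γ * ξ)‖ₑ ^ 2 * ‖m {ξ} (π z ω)‖ₑ ^ 2
      = ∑' ξ, (∑' γ, ‖g γ‖ₑ ^ 2 * ‖f (γ * ξ)‖ₑ ^ 2) * ‖m {ξ} (π z ω)‖ₑ ^ 2 :=
        tsum_congr fun ξ => ENNReal.tsum_mul_right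
    _ ≤ ∑' ξ, c * ‖m {ξ} (π z ω)‖ₑ ^ 2 := by
        refine ENNReal.tsum_le_tsum fun ξ => ?_
        gcongr
        exact hc ξ
    _ = c * ‖π z ω‖ₑ ^ 2 := by rw [ENNReal.tsum_mul_left, ms_parseval hM]
    _ = c * ‖ω‖ₑ ^ 2 := by rw [enorm_sq, unitary_norm hP, ← enorm_sq]

/-- **The trace of the product of two conjugated diagonal operators.** -/
theorem trn_dgF (hp : PicF π lam W Ω) (hM : MsF lam W Ω m) {f g : Γ → ℂ} {X Y : K →L[ℂ] K}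
    (hX : Dg m f X) (hY : Dg m g Y) (hXW : Cm W X) (hYW : Cm W Y) {c : ℝ≥0∞}
    (hc : ∀ ξ, ∑' γ, ‖g γ‖ₑ ^ 2 * ‖f (γ * ξ)‖ₑ ^ 2 ≤ c) (x y : G) :
    TRNF lam Ω (π x⁻¹ * X * π x * adjoint (π y⁻¹ * Y * π y)) ≤ c := by
  have hcX : Cm W (π x⁻¹ * X * π x) := by
    have := cm_conj hp.WP hXW x⁻¹
    rwa [inv_inv] at this
  have hcY : Cm W (π y⁻¹ * Y * π y) := by
    have := cm_conj hp.WP hYW y⁻¹
    rwa [inv_inv] at this
  rw [← hp.tr_conj _ (cm_mul hcX (cm_adj hp.Wadj hcY)) y]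
  have e1 : adjoint (π y⁻¹ * Y * π y) = π y⁻¹ * adjoint Y * π y := by
    change adjoint (((π y⁻¹).comp Y).comp (π y)) = _
    rw [adjoint_comp, adjoint_comp, hp.adjP, hp.adjP, inv_inv]
    rfl
  have e2 : π y * (π x⁻¹ * X * π x * adjoint (π y⁻¹ * Y * π y)) * π y⁻¹ =
      π (y * x⁻¹) * (X * π (x * y⁻¹) * adjoint Y) := by
    have e : π y * π y⁻¹ = 1 := by rw [← map_mul, mul_inv_cancel, map_one]
    rw [e1, map_mul, map_mul]
    calc _ = π y * π x⁻¹ * (X * (π x * π y⁻¹) * adjoint Y) * (π y * π y⁻¹) := by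
          simp only [mul_assoc]
      _ = _ := by rw [e, mul_one]
  rw [e2, TRNF]
  have h1 : ∀ i, TRN lam (Ω i) (π (y * x⁻¹) * (X * π (x * y⁻¹) * adjoint Y)) ≤
      c * ‖Ω i‖ₑ ^ 2 := by
    intro i
    by_cases h0 : Ω i = 0
    · rw [h0, TRN]
      simp
    · obtain ⟨W', hW'⟩ := ms_wk hM (hM.om i) h0
      exact trn_dg1 hp.adjP hp.adjL hp.comm hW' hX hY hc _ _
  refine (Finset.sum_le_sum fun i _ => h1 i).trans ?_
  rw [← Finset.mul_sum]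
  have h2 : ∑ i, ‖Ω i‖ₑ ^ 2 = 1 := by
    calc ∑ i, ‖Ω i‖ₑ ^ 2 = ∑ i, ENNReal.ofReal (‖Ω i‖ ^ 2) :=
          Finset.sum_congr rfl fun i _ => enorm_sq _
      _ = ENNReal.ofReal (∑ i, ‖Ω i‖ ^ 2) :=
          (ENNReal.ofReal_sum_of_nonneg fun i _ => sq_nonneg _).symm
      _ = 1 := by rw [hp.nΩ, ENNReal.ofReal_one]
  rw [h2, mul_one]

/-- there is a unit vector -/
theorem exists_unit (hp : PicF π lam W Ω) : ∃ v : K, ‖v‖ = 1 := by
  have h1 : ∃ i, Ω i ≠ 0 := by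
    by_contra h
    push Not at h
    have h2 := hp.nΩ
    simp [h] at h2
  obtain ⟨i, hi⟩ := h1
  exact ⟨((‖Ω i‖⁻¹ : ℝ) : ℂ) • Ω i, by
    rw [norm_smul, Complex.norm_real, norm_inv, norm_norm, inv_mul_cancel₀ (norm_ne_zero_iff.2 hi)]⟩

end main

end Vale.Agent.P092.SP.X
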