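import Vale.Agent.P092.H486.EngJ
import Vale.Agent.P092.SPT.IncF

/-!
P092, TEAM P, all amplifications (helper421): the engine of helper486 (H486/EngD, EngI, EngJ) for a
finite family of vectors in the place of the trace vector.
-/

set_option linter.all false

open scoped InnerProductSpace Pointwise ENNReal
open Filter Topology ContinuousLinearMap TopologicalSpace

namespace Vale.Agent.P092.SP.X

open Vale.Agent.P092.H859.CL
open Vale.Agent.P092.H553 (ind ind_nonneg ind_le_one abs_ind_le ind_pos ind_neg)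
open Vale.Agent.P092.H43 (Loc2 loc_at)
open Vale.Agent.P092.RC (Moore Cm TRN PicF TRNF)
open Vale.Agent.P092.SD (MsF)
open Vale.Agent.P092.H486.Eng

/-- ergodicity -/
def Erg {G Γ K : Type} [Group G] [TopologicalSpace G] [Group Γ] [NormedAddCommGroup K]
    [InnerProductSpace ℂ K] [CompleteSpace K] (π : G →* (K →L[ℂ] K)) (lam : Γ →* (K →L[ℂ] K))
    (W : Set (K →L[ℂ] K)) : Prop :=
  ∀ S : Set G, Moore S → ∀ T, Cm W T → (∀ γ, T * lam γ = lam γ * T) →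
    (∀ g ∈ S, T * π g = π g * T) → ∃ z : ℂ, T = z • (1 : K →L[ℂ] K)

section fam

variable {E Γ Y Z K : Type} [Group E] [Group Γ] [MulAction E Z] [TopologicalSpace Y]
  [CompactSpace Y] [MulAction Γ Y] [NormedAddCommGroup K] [InnerProductSpace ℂ K]
  [CompleteSpace K] {b : E} {π : E →* (K →L[ℂ] K)} {lam : Γ →* (K →L[ℂ] K)}
  {W : Set (K →L[ℂ] K)} {Ω : K}
  {mp : (Γ → ℝ) → (K →L[ℂ] K)} {NA : ℝ → ℝ → Set Y → Set Γ} {z0 : Z} {Br : ℝ → Set Γ}
  {G1 G2 : Γ → ℝ} {bp : Γ → Y} {Bd Bf : Set K} {ms : E → Set Γ → ℝ} {A : Subgroup E}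
  {𝒰 : Ultrafilter ℕ}

/-- the unique `z`-independent mass -/
theorem mass_of [TopologicalSpace E] {F : Z → (C(Y, ℂ) →ₗ[ℂ] (K →L[ℂ] K))} (hE : Erg π lam W) (hΩ1 : ‖Ω‖ = 1)
    (h : FamU b π lam W (st mp) NA z0 (𝒰 : Filter ℕ) F) (htr : ∀ z : Z, ∃ g : E, g • z0 = z)
    (hmo : Moore {g : E | g • z0 = z0}) : ∃ p : ℝ, 0 ≤ p ∧ p ≤ 1 ∧ ∀ z, F z 1 = (p : ℂ) • 1 := by
  have hinv : ∀ g : E, π g * π g⁻¹ = 1 := fun g => by rw [← map_mul, mul_inv_cancel, map_one]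
  have hinv' : ∀ g : E, π g⁻¹ * π g = 1 := fun g => by rw [← map_mul, inv_mul_cancel, map_one]
  have hlinv' : ∀ γ : Γ, lam γ⁻¹ * lam γ = 1 := fun g => by
    rw [← map_mul, inv_mul_cancel, map_one]
  obtain ⟨c, hc⟩ := hE _ hmo (F z0 1) (h.cm z0 1) (fun γ => by
    have h1 := h.cov γ z0 1 1 (fun y => rfl)
    calc F z0 1 * lam γ = (lam γ * F z0 1 * lam γ⁻¹) * lam γ := by rw [h1]
      _ = lam γ * F z0 1 * (lam γ⁻¹ * lam γ) := by simp only [mul_assoc]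
      _ = _ := by rw [hlinv', mul_one]) (fun g hg => by
    have h1 := h.pcov g z0 1
    rw [show g • z0 = z0 from hg] at h1
    calc F z0 1 * π g = (π g * F z0 1 * π g⁻¹) * π g := by rw [h1]
      _ = π g * F z0 1 * (π g⁻¹ * π g) := by simp only [mul_assoc]
      _ = _ := by rw [hinv', mul_one])
  -- the scalar is real, between zero and one
  have hnΩ : ⟪Ω, Ω⟫_ℂ = 1 := by
    rw [inner_self_eq_norm_sq_to_K, hΩ1]; simp
  have hcΩ : ⟪Ω, F z0 1 Ω⟫_ℂ = c := by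
    rw [hc]
    change ⟪Ω, c • Ω⟫_ℂ = c
    rw [inner_smul_right, hnΩ, mul_one]
  have him : c.im = 0 := by
    have h1 := h.star z0 1
    rw [star_one] at h1
    have h2 : ⟪Ω, F z0 1 Ω⟫_ℂ = (starRingEnd ℂ) ⟪Ω, F z0 1 Ω⟫_ℂ := by
      rw [inner_conj_symm]
      conv_lhs => rw [h1]
      rw [adjoint_inner_right]
    rw [hcΩ] at h2
    exact Complex.conj_eq_iff_im.mp h2.symm
  have hre0 : 0 ≤ c.re := by
    have h1 := h.bes z0 (Finset.univ : Finset Unit) (fun _ => 1) Ω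
    simp only [Finset.univ_unique, Finset.sum_singleton, star_one, one_mul] at h1
    rw [hcΩ] at h1
    exact (by positivity : (0 : ℝ) ≤ ‖F z0 1 Ω‖ ^ 2).trans h1
  have hre1 : c.re ≤ 1 := by
    have h1 := h.nrm z0 1
    have h2 : ‖F z0 1 Ω‖ ≤ 1 := by
      refine ((F z0 1).le_opNorm Ω).trans ?_
      rw [hΩ1, mul_one]
      exact h1.trans ((ContinuousMap.norm_le _ zero_le_one).2 fun y => by simp)
    have h3 : c.re ≤ ‖⟪Ω, F z0 1 Ω⟫_ℂ‖ := by rw [hcΩ]; exact Complex.re_le_norm c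
    refine h3.trans ((norm_inner_le_norm _ _).trans ?_)
    rw [hΩ1, one_mul]; exact h2
  refine ⟨c.re, hre0, hre1, fun z => ?_⟩
  have hcr : ((c.re : ℝ) : ℂ) = c := Complex.ext (by simp) (by simp [him])
  obtain ⟨g, rfl⟩ := htr z
  rw [← h.pcov g z0 1, hc, hcr, mul_smul_comm, mul_one, smul_mul_assoc, hinv]

/-- **[P-ENGM]: the engine with masses.** -/
theorem ufam_gen [TopologicalSpace E] (h𝒰 : (𝒰 : Filter ℕ) ≤ atTop) (hE : Erg π lam W)
    {v0 : K} (hv0 : ‖v0‖ = 1)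
    (hM : Moore {g : E | g • z0 = z0})
    (h : H859.CN.SysF mp (fun g => π g) Bd ms A Br G1 G2)
    (hL : Leg mp (fun g => π g) (fun γ => lam γ) W) (hG : GeoU G1 G2 bp)
    (hS : Slow mp (fun g => π g) Bd) (hloc : Loc2 mp (fun g => π g) Bd Bf)
    (he : Esc (st mp) (fun g => π g) Bd A (pw b⁻¹)) (hcut : H859.CN.DomCut NA G1 G2 bp)
    (htr : ∀ z : Z, ∃ g : E, g • z0 = z)
    (hst : ∀ g : E, g • z0 = z0 → ∃ v n, g = v * n ∧ v * b = b * v ∧
      Tendsto (fun N : ℕ => (b ^ N)⁻¹ * n * b ^ N) atTop (𝓝 1)) :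
    ∃ (U : Z → (C(Y, ℂ) →ₗ[ℂ] (K →L[ℂ] K))) (p : ℝ), 0 ≤ p ∧ p ≤ 1 ∧
      UFamE mp π lam W b G1 G2 bp 𝒰 NA z0 U p := by
  obtain ⟨F, hF, hFl⟩ := famU_eng h𝒰 h hL hG hS hloc he hcut htr hst
  obtain ⟨p, hp0, hp1, hpm⟩ := mass_of hE hv0 hF htr hM
  refine ⟨F, p, hp0, hp1, ⟨fun z => ⟨hpm z, fun f => ?_, fun n v ξ => ?_⟩, hF.cm, hF.cov, hF.pcov,
    fun g u A0 _ hu => hF.dom g u A0 hu, fun g f ξ η => ?_⟩⟩
  · rw [star_eq_adjoint]; exact hF.star z f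
  · exact hF.bes z Finset.univ v ξ
  · rw [← hF.pcov g z0 f]
    exact tendsto_ut.1 ((hFl f).conj (π g) (π g⁻¹) η ξ)

/-- **The sum rule of the masses.** -/
theorem sum_one_gen [TopologicalSpace E] {Y' Z' : Type} [MulAction E Z'] [TopologicalSpace Y'] [CompactSpace Y']
    [MulAction Γ Y'] {bp' : Γ → Y'} {NA' : ℝ → ℝ → Set Y' → Set Γ} {z0' : Z'}
    {U : Z → (C(Y, ℂ) →ₗ[ℂ] (K →L[ℂ] K))} {U' : Z' → (C(Y', ℂ) →ₗ[ℂ] (K →L[ℂ] K))} {p p' : ℝ}
    (h𝒰 : (𝒰 : Filter ℕ) ≤ atTop) (hΩ1 : ‖Ω‖ = 1)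
    (h : H859.CN.SysF mp (fun g => π g) Bd ms A Br G1 G2)
    (hfin : ∀ r, (FF G1 G2 r).Finite) (he : Esc (st mp) (fun g => π g) Bd A (pw b⁻¹))
    (hU : UFamE mp π lam W b G1 G2 bp 𝒰 NA z0 U p)
    (hU' : UFamE mp π lam W b G2 G1 bp' 𝒰 NA' z0' U' p') : p + p' = 1 := by
  have hf := h.fn
  have hR := h.sys.rep
  have he' : Esc (st mp) (fun g => π g) Bd A (ut b 𝒰 : Filter E) := he.mono (ut_le b h𝒰)
  have h1 := hU.isU 1 Ω Ω
  have h2 := hU'.isU 1 Ω Ω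
  have hΩ : ⟪Ω, Ω⟫_ℂ = 1 := by
    rw [inner_self_eq_norm_sq_to_K, hΩ1]; simp
  have e1 : ⟪Ω, U z0 1 Ω⟫_ℂ = p := by
    rw [(hU.ul z0).one]
    change ⟪Ω, (p : ℂ) • Ω⟫_ℂ = p
    rw [inner_smul_right, hΩ, mul_one]
  have e2 : ⟪Ω, U' z0' 1 Ω⟫_ℂ = p' := by
    rw [(hU'.ul z0').one]
    change ⟪Ω, (p' : ℂ) • Ω⟫_ℂ = p'
    rw [inner_smul_right, hΩ, mul_one]
  rw [e1] at h1
  rw [e2] at h2
  have h3 := h1.add h2
  -- the diagonal is negligible
  have hN : ∀ r, ∃ T, {g : Γ | G1 g = G2 g} ⊆ FF G1 G2 T ∪ BB G1 G2 r := by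
    intro r
    refine ⟨r, fun g hg => ?_⟩
    have hg' : G1 g = G2 g := hg
    by_cases h4 : G1 g ≤ r
    · left; exact ⟨h4, hg' ▸ h4⟩
    · right; push Not at h4; exact ⟨h4, hg' ▸ h4⟩
  have h4 := H859.CN.negl h.sys he' hfin hN Ω
  have h5 : Tendsto (fun w => ⟪(fun g => π g) w Ω, st mp {g : Γ | G1 g = G2 g} ((fun g => π g) w Ω)⟫_ℂ)
      (ut b 𝒰 : Filter E) (𝓝 0) := by
    refine squeeze_zero_norm (fun w => ?_) h4
    refine (norm_inner_le_norm _ _).trans ?_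
    have h6 : ‖(fun g => π g) w Ω‖ ≤ 1 := (hR.norm_le w Ω).trans hΩ1.le
    exact mul_le_of_le_one_left (norm_nonneg _) h6
  have h6 : Tendsto (fun w => 1 + ⟪(fun g => π g) w Ω, st mp {g : Γ | G1 g = G2 g}
      ((fun g => π g) w Ω)⟫_ℂ) (ut b 𝒰 : Filter E) (𝓝 1) := by
    have := (tendsto_const_nhds (x := (1 : ℂ))).add h5
    rwa [add_zero] at this
  have h7 : ((p : ℂ) + p') = 1 := by
    refine tendsto_nhds_unique h3 (h6.congr fun w => ?_)
    have c1 : H859.CL.cfc G1 G2 bp (1 : C(Y, ℂ)) = fun g => ((ind (fun g => G2 g ≤ G1 g) g : ℝ) : ℂ) := by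
      funext g; simp [H859.CL.cfc]
    have c2 : H859.CL.cfc G2 G1 bp' (1 : C(Y', ℂ)) =
        fun g => ((ind (fun g => G1 g ≤ G2 g) g : ℝ) : ℂ) := by
      funext g; simp [H859.CL.cfc]
    have c3 : ∀ x : K, st mp {g : Γ | G1 g = G2 g} x + x =
        mp (ind fun g => G2 g ≤ G1 g) x + mp (ind fun g => G1 g ≤ G2 g) x := by
      intro x
      rw [st]
      have b1 := fun (P : Γ → Prop) => abs_ind_le P
      have d1 := hf.add_ap (F := ind fun g => G2 g ≤ G1 g) (G := ind fun g => G1 g ≤ G2 g)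
        (b1 _) (b1 _) x
      have d2 := hf.add_ap (F := ind fun g => g ∈ {g : Γ | G1 g = G2 g}) (G := fun _ => (1 : ℝ))
        (D := 1) (b1 _) (fun g => by simp) x
      rw [hf.one_ap] at d2
      rw [← d1, ← d2]
      congr 2
      funext g
      by_cases k1 : G2 g ≤ G1 g
      · by_cases k2 : G1 g ≤ G2 g
        · rw [ind_pos (P := fun g => G2 g ≤ G1 g) k1, ind_pos (P := fun g => G1 g ≤ G2 g) k2,
            ind_pos (P := fun g => g ∈ {g : Γ | G1 g = G2 g}) (le_antisymm k2 k1)]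
        · rw [ind_pos (P := fun g => G2 g ≤ G1 g) k1, ind_neg (P := fun g => G1 g ≤ G2 g) k2,
            ind_neg (P := fun g => g ∈ {g : Γ | G1 g = G2 g}) (fun h0 => k2 (le_of_eq h0))]
          ring
      · have k2 : G1 g ≤ G2 g := (not_le.1 k1).le
        rw [ind_neg (P := fun g => G2 g ≤ G1 g) k1, ind_pos (P := fun g => G1 g ≤ G2 g) k2,
          ind_neg (P := fun g => g ∈ {g : Γ | G1 g = G2 g}) (fun h0 => k1 (le_of_eq h0.symm))]
    have c4 : ∀ F : Γ → ℝ, ⟪Ω, PC mp (fun g => π g) w (fun g => ((F g : ℝ) : ℂ)) Ω⟫_ℂ =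
        ⟪(fun g => π g) w Ω, mp F ((fun g => π g) w Ω)⟫_ℂ := by
      intro F
      rw [PC_real hf]
      change ⟪Ω, π w⁻¹ (mp F (π w Ω))⟫_ℂ = _
      have := hR.inner_right w⁻¹ Ω (mp F (π w Ω))
      rw [inv_inv] at this
      exact this
    dsimp only at c3 c4 ⊢
    rw [c1, c2, c4, c4, ← inner_add_right, ← c3, inner_add_right]
    have h8 : ⟪π w Ω, π w Ω⟫_ℂ = 1 := by
      have h9 := hR.norm_eq w Ω
      have h10 : ‖π w Ω‖ = 1 := by
        change ‖π w Ω‖ = ‖π 1 Ω‖ at h9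
        rw [h9, map_one]; exact hΩ1
      rw [inner_self_eq_norm_sq_to_K, h10]; simp
    rw [h8]; ring
  exact_mod_cast h7

end fam

section inc

variable {E Γ Y Y' K κ : Type} [Group E] [TopologicalSpace E] [Group Γ] [TopologicalSpace Y]
  [CompactSpace Y] [TopologicalSpace Y'] [CompactSpace Y'] [NormedAddCommGroup K]
  [InnerProductSpace ℂ K] [CompleteSpace K] [Fintype κ] {π : E →* (K →L[ℂ] K)}
  {lam : Γ →* (K →L[ℂ] K)}
  {W : Set (K →L[ℂ] K)} {Ω : κ → K} {mp : (Γ → ℝ) → (K →L[ℂ] K)} {Bd Bd' : Set K}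
  {G1 G2 H1 H2 : Γ → ℝ} {bp : Γ → Y} {bp' : Γ → Y'} {Br Br' : ℝ → Set Γ}
  {ms ms' : E → Set Γ → ℝ} {A A' : Subgroup E} {r : ℝ}
  {P Pr : C(Y, ℂ) →ₗ[ℂ] (K →L[ℂ] K)} {Q Qr : C(Y', ℂ) →ₗ[ℂ] (K →L[ℂ] K)}

/-- **(I1) for the cut-off maps.** -/
theorem inc_cutF (hP : PicF π lam W Ω) (hM : MsF lam W Ω (st mp)) (hf : Fn mp)
    (hR : Rep fun g => π g) (hL : Leg mp (fun g => π g) (fun γ => lam γ) W) {l l' : Filter E}
    [l.NeBot] [l'.NeBot] (hPr : IsUr mp (fun g => π g) G1 G2 bp r l Pr)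
    (hQr : IsUr mp (fun g => π g) H1 H2 bp' r l' Qr) {S : Set E} (hS : Moore S)
    (hPS : ∀ g ∈ S, ∀ f, Pr f * π g = π g * Pr f) (hQS : ∀ g ∈ S, ∀ f, Qr f * π g = π g * Qr f)
    (u : C(Y, ℂ)) (v : C(Y', ℂ)) {N : ℕ}
    (hN : ∀ ζ : Γ, ∀ S : Finset Γ,
      (∀ γ ∈ S, cfr G1 G2 bp r u γ ≠ 0 ∧ cfr H1 H2 bp' r v (γ * ζ) ≠ 0) → S.card ≤ N) :
    Qr (star v * v) * Pr (star u * u) = 0 := by
  have hc : ∀ {F : Γ → ℂ} {C : ℝ}, (∀ g, ‖F g‖ ≤ C) → Cm W (mc mp F) := by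
    intro F C hF w hw
    exact (hL.WmC hf hw hF).symm
  have hcp : ∀ {F : Γ → ℂ} {C : ℝ}, (∀ g, ‖F g‖ ≤ C) → ∀ w : E,
      Cm W (PC mp (fun g => π g) w F) := by
    intro F C hF w x hx
    exact (PC_W hL hf hR hx hF w).symm
  have hsq : ∀ {F : Γ → ℂ} {C : ℝ}, (∀ g, ‖F g‖ ≤ C) → ∀ w : E,
      adjoint (PC mp (fun g => π g) w F) * PC mp (fun g => π g) w F =
        PC mp (fun g => π g) w (fun g => (starRingEnd ℂ) (F g) * F g) := by
    intro F C hF w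
    rw [PC_adj hf hR hF, ← PC_mul hf hR hL.one (fun g => by rw [RCLike.norm_conj]; exact hF g) hF]
  refine i1_zeroF (l := l') (l' := l) hP
    (a := fun w => PC mp (fun g => π g) w (cfr H1 H2 bp' r v))
    (b := fun w => PC mp (fun g => π g) w (cfr G1 G2 bp r u))
    (fun w => hcp (fun g => crd r v g) w) (fun w => hcp (fun g => crd r u g) w) ?_ ?_
    (N := N * ENNReal.ofReal (‖u‖ ^ 2 * ‖v‖ ^ 2)) ?_ ?_ hS
    (fun g hg => hQS g hg _) (fun g hg => hPS g hg _)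
  · intro ξ η
    refine (hQr (star v * v) ξ η).congr fun w => ?_
    rw [cfr_mul_self]
    dsimp only
    rw [hsq (F := cfr H1 H2 bp' r v) (fun g => crd r v g)]
  · intro ξ η
    refine (hPr (star u * u) ξ η).congr fun w => ?_
    rw [cfr_mul_self]
    dsimp only
    rw [hsq (F := cfr G1 G2 bp r u) (fun g => crd r u g)]
  · exact ENNReal.mul_lt_top (ENNReal.natCast_lt_top N) ENNReal.ofReal_lt_top
  · refine Frequently.of_forall fun y => Frequently.of_forall fun x => ?_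
    exact trn_dgF hP hM
      (dg_mc hf fun g => crd r v g) (dg_mc hf fun g => crd r u g) (hc fun g => crd r v g)
      (hc fun g => crd r u g)
      (H494.PI.count_le (norm_nonneg v) (norm_nonneg u) (fun g => crd r v g)
        (fun g => crd r u g) hN) x y

/-- **(I1)**, general filters. -/
theorem inc_genF (hP : PicF π lam W Ω) (hM : MsF lam W Ω (st mp))
    (h : H859.CN.SysF mp (fun g => π g) Bd ms A Br G1 G2)
    (h' : H859.CN.SysF mp (fun g => π g) Bd' ms' A' Br' H1 H2)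
    (hL : Leg mp (fun g => π g) (fun γ => lam γ) W) (hSl : Slow mp (fun g => π g) Bd)
    (hSl' : Slow mp (fun g => π g) Bd') {l l' : Ultrafilter E}
    (hfG : ∀ r, (FF G1 G2 r).Finite) (hfH : ∀ r, (FF H1 H2 r).Finite)
    (hPl : IsU mp (fun g => π g) G1 G2 bp (l : Filter E) P)
    (hQl : IsU mp (fun g => π g) H1 H2 bp' (l' : Filter E) Q)
    (hPc : CutC mp (fun g => π g) G1 G2 bp (l : Filter E) P)
    (hQc : CutC mp (fun g => π g) H1 H2 bp' (l' : Filter E) Q) {S : Set E} (hS : Moore S)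
    (hc : ∀ n ∈ S, Tendsto (fun w => w * n * w⁻¹) (l : Filter E) (𝓝 1))
    (hc' : ∀ n ∈ S, Tendsto (fun w => w * n * w⁻¹) (l' : Filter E) (𝓝 1))
    (u : C(Y, ℂ)) (v : C(Y', ℂ)) (ov : Ovl G1 G2 bp H1 H2 bp' (tsupport u) (tsupport v)) :
    P u * Q v = 0 ∧ Q v * P u = 0 := by
  have hf := h.fn
  have hR := h.sys.rep
  -- squares
  have key : ∀ (u : C(Y, ℂ)) (v : C(Y', ℂ)), Ovl G1 G2 bp H1 H2 bp' (tsupport u) (tsupport v) →
      Q (star v * v) * P (star u * u) = 0 := by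
    intro u v ov
    choose Pn hPn using fun n : ℕ => exists_isUr (G1 := G1) (G2 := G2) (bp := bp) (Y := Y) hf hR l
      (n : ℝ)
    choose Qn hQn using fun n : ℕ => exists_isUr (G1 := H1) (G2 := H2) (bp := bp') (Y := Y') hf hR l'
      (n : ℝ)
    have hz : ∀ n, Qn n (star v * v) * Pn n (star u * u) = 0 := by
      intro n
      obtain ⟨N, hN⟩ := ov.cut hfG hfH (n : ℝ) (u := u) (v := v)
        (fun y hy => subset_tsupport _ hy) (fun y hy => subset_tsupport _ hy)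
      exact inc_cutF hP hM hf hR hL (hPn n) (hQn n) hS
        (fun g hg f => ((hPn n).contr h hSl (hc g hg) f).symm)
        (fun g hg f => ((hQn n).contr h' hSl' (hc' g hg) f).symm) u v hN
    have tP : ∀ f ξ, Tendsto (fun n => Pn n f ξ) atTop (𝓝 (P f ξ)) := by
      intro f ξ
      rw [Metric.tendsto_nhds]
      intro ε hε
      obtain ⟨r0, hr0⟩ := hPc ξ (ε / (‖f‖ + 1)) (by positivity)
      filter_upwards [eventually_ge_atTop ⌈r0⌉₊] with n hn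
      have h1 := hr0 n ((Nat.le_ceil r0).trans (by exact_mod_cast hn)) (Pn n) (hPn n) f
      rw [dist_comm, dist_eq_norm]
      refine h1.trans_lt ?_
      rw [mul_div_assoc', div_lt_iff₀ (by positivity)]
      have := norm_nonneg f
      nlinarith
    have tQ : ∀ f ξ, Tendsto (fun n => Qn n f ξ) atTop (𝓝 (Q f ξ)) := by
      intro f ξ
      rw [Metric.tendsto_nhds]
      intro ε hε
      obtain ⟨r0, hr0⟩ := hQc ξ (ε / (‖f‖ + 1)) (by positivity)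
      filter_upwards [eventually_ge_atTop ⌈r0⌉₊] with n hn
      have h1 := hr0 n ((Nat.le_ceil r0).trans (by exact_mod_cast hn)) (Qn n) (hQn n) f
      rw [dist_comm, dist_eq_norm]
      refine h1.trans_lt ?_
      rw [mul_div_assoc', div_lt_iff₀ (by positivity)]
      have := norm_nonneg f
      nlinarith
    have nQ : ∀ n f, ‖Qn n f‖ ≤ ‖f‖ := fun n f => (hQn n f).norm_le (norm_nonneg _)
      (Eventually.of_forall fun w => PC_opNorm hf hR (norm_nonneg _) (fun g => crd _ f g) w)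
    ext ξ
    have h1 := tendsto_mul_ap (l := (atTop : Filter ℕ)) (fun n => nQ n (star v * v))
      (tQ (star v * v)) (tP (star u * u)) ξ
    refine tendsto_nhds_unique h1 ?_
    simp only [hz]
    exact tendsto_const_nhds
  have hPs := fun f => hPl.star hf hR f
  have hQs := fun f => hQl.star hf hR f
  have hPb := fun f ξ => hPl.sq_le hf hR f ξ
  have hQb := fun f ξ => hQl.sq_le hf hR f ξ
  have ts : ∀ f : C(Y, ℂ), tsupport (star f : C(Y, ℂ)) ⊆ tsupport f := by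
    intro f
    refine closure_mono fun y hy h0 => hy ?_
    change (starRingEnd ℂ) (f y) = 0
    rw [h0, map_zero]
  have ts' : ∀ f : C(Y', ℂ), tsupport (star f : C(Y', ℂ)) ⊆ tsupport f := by
    intro f
    refine closure_mono fun y hy h0 => hy ?_
    change (starRingEnd ℂ) (f y) = 0
    rw [h0, map_zero]
  have hQP : ∀ (u : C(Y, ℂ)) (v : C(Y', ℂ)), Ovl G1 G2 bp H1 H2 bp' (tsupport u) (tsupport v) →
      Q v * P u = 0 := by
    intro u v ov
    have h1 := zero_of_sq hPs hQs hPb hQb (u := star u) (v := v)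
      (key (star u) v (ov.mono (ts u) subset_rfl))
    rwa [star_star] at h1
  refine ⟨?_, hQP u v ov⟩
  have h1 := congrArg adjoint (hQP (star u) (star v) (ov.mono (ts u) (ts' v)))
  rw [map_zero] at h1
  rw [← h1]
  have h5 : adjoint (Q (star v) * P (star u)) = adjoint (P (star u)) * adjoint (Q (star v)) := by
    rw [← star_eq_adjoint, ← star_eq_adjoint, ← star_eq_adjoint, star_mul]
  rw [h5, ← hPs, ← hQs, star_star, star_star]

/-- **(I1) at two arbitrary places** `g • z0`, `g' • z0'` of two families (any two walls `b`, `b'`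
of the source, any two types of the target): `S` is a Moore set contracted by both conjugated
walls. -/
theorem ufam_incF {Z Z' : Type} [MulAction E Z] [MulAction E Z'] [MulAction Γ Y] [MulAction Γ Y']
    {b b' : E} {z0 : Z} {z0' : Z'} {NA : ℝ → ℝ → Set Y → Set Γ} {NA' : ℝ → ℝ → Set Y' → Set Γ}
    {𝒰 𝒰' : Ultrafilter ℕ} {U : Z → (C(Y, ℂ) →ₗ[ℂ] (K →L[ℂ] K))}
    {U' : Z' → (C(Y', ℂ) →ₗ[ℂ] (K →L[ℂ] K))} {p p' : ℝ}
    (h𝒰 : (𝒰 : Filter ℕ) ≤ atTop) (h𝒰' : (𝒰' : Filter ℕ) ≤ atTop)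
    (hP : PicF π lam W Ω) (hM : MsF lam W Ω (st mp))
    (h : H859.CN.SysF mp (fun g => π g) Bd ms A Br G1 G2)
    (h' : H859.CN.SysF mp (fun g => π g) Bd' ms' A' Br' H1 H2)
    (hL : Leg mp (fun g => π g) (fun γ => lam γ) W) (hSl : Slow mp (fun g => π g) Bd)
    (hSl' : Slow mp (fun g => π g) Bd')
    (he : Esc (st mp) (fun g => π g) Bd A (pw b⁻¹))
    (he' : Esc (st mp) (fun g => π g) Bd' A' (pw b'⁻¹))
    (hfG : ∀ r, (FF G1 G2 r).Finite) (hfH : ∀ r, (FF H1 H2 r).Finite)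
    (hU : UFamE mp π lam W b G1 G2 bp 𝒰 NA z0 U p)
    (hU' : UFamE mp π lam W b' H1 H2 bp' 𝒰' NA' z0' U' p') (g g' : E) {S : Set E} (hS : Moore S)
    (hc : ∀ n ∈ S, Tendsto (fun N : ℕ => (b ^ N)⁻¹ * (g⁻¹ * n * g) * b ^ N) atTop (𝓝 1))
    (hc' : ∀ n ∈ S, Tendsto (fun N : ℕ => (b' ^ N)⁻¹ * (g'⁻¹ * n * g') * b' ^ N) atTop (𝓝 1))
    (u : C(Y, ℂ)) (v : C(Y', ℂ)) (ov : Ovl G1 G2 bp H1 H2 bp' (tsupport u) (tsupport v)) :
    U (g • z0) u * U' (g' • z0') v = 0 ∧ U' (g' • z0') v * U (g • z0) u = 0 := by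
  have hiso : ∀ (g : E) x, ‖π g x‖ = ‖x‖ := by
    intro v x
    have h1 := h.sys.rep.norm_eq v x
    change ‖π v x‖ = ‖π 1 x‖ at h1
    rw [h1, map_one]
    rfl
  have c1 : CutC mp (fun g => π g) G1 G2 bp (ut b 𝒰 : Filter E) (U z0) := fun ξ ε hε =>
    cut_close h (he.mono (ut_le b h𝒰)) hU.isU ξ hε
  have c2 : CutC mp (fun g => π g) H1 H2 bp' (ut b' 𝒰' : Filter E) (U' z0') := fun ξ ε hε =>
    cut_close h' (he'.mono (ut_le b' h𝒰')) hU'.isU ξ hε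
  have ct : ∀ {b g : E} {𝒰 : Ultrafilter ℕ} (h𝒰 : (𝒰 : Filter ℕ) ≤ atTop) {n : E}
      (hc : Tendsto (fun N : ℕ => (b ^ N)⁻¹ * (g⁻¹ * n * g) * b ^ N) atTop (𝓝 1)),
      Tendsto (fun w => w * n * w⁻¹)
        (((ut b 𝒰).map fun w => w * g⁻¹ : Ultrafilter E) : Filter E) (𝓝 1) := by
    intro b g 𝒰 h𝒰 n hc
    rw [Ultrafilter.coe_map, Filter.tendsto_map'_iff, tendsto_ut]
    refine (hc.mono_left h𝒰).congr fun N => ?_
    simp only [Function.comp_apply]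
    group
  have e1 : U (g • z0) u = cl π g (U z0) u := by rw [cl_apply, hU.pcov]
  have e2 : U' (g' • z0') v = cl π g' (U' z0') v := by rw [cl_apply, hU'.pcov]
  rw [e1, e2]
  exact inc_genF hP hM h h' hL hSl hSl' hfG hfH (isU_shift hU.isU g) (isU_shift hU'.isU g')
    (cutC_shift hiso c1 g) (cutC_shift hiso c2 g') hS (fun n hn => ct h𝒰 (hc n hn))
    (fun n hn => ct h𝒰' (hc' n hn)) u v ov

end inc

end Vale.Agent.P092.SP.X
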