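import Vale.Agent.P092.SPT.X

/-!
P092, TEAM P, all amplifications (helper421): the leg `SP.LegP` for a finite family of vectors, and
its amplification `K ⊗ ℂ^Q`, which has one vector.
-/

set_option linter.all false

open scoped InnerProductSpace ENNReal LinearAlgebra.Projectivization ZeroAtInfty
open Filter Topology ContinuousLinearMap MeasureTheory TopologicalSpace

namespace Vale.Agent.P092.SP.X

open Vale.Agent.P092.H333.Amp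
open Vale.Agent.P092.SD (Ms UC MM MsF norm_amp_le norm_le_coord)
open Vale.Agent.P092.RC (Cm TRN Moore GG PG YY y0 TRNF PicF ampH ampH_ap ampW ampO cm_ampW cm_amp
  amp_comm_iff)
open Vale.Agent.P092.H790.CTA (ORBG SIZEG)
open Vale.Agent.P092.H232 (Nin)
open Vale.Agent.P092.SP4
open Vale.Agent.P092.SP
open Vale.Agent.P092.SNT (ORBGF uc_ampG size_ampG orb_ampG)

/-! ### One leg with a family of vectors -/

section defs

variable {k : Type} [NontriviallyNormedField k] [ProperSpace k] {E Γ K κ : Type} [Group E]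
  [TopologicalSpace E] [Group Γ] [NormedAddCommGroup K] [InnerProductSpace ℂ K] [CompleteSpace K]
  [Fintype κ]

/-- `SP.ORB` for a family of vectors -/
def ORBF [MeasurableSpace k] (μ : Measure k) (ι : S4 k →* E) (π : E →* (K →L[ℂ] K))
    (lam : Γ →* (K →L[ℂ] K)) (W : Set (K →L[ℂ] K)) (Ω : κ → K) (b : S4 k) (n : k → S4 k) : Prop :=
  ∃ ρ : ℝ, 0 < ρ ∧ ρ < 1 ∧ ORBGF μ (ι b) (fun s => ι (n s)) ρ π lam W Ω

/-- `SP.PB` for a family of vectors -/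
structure PBF [MeasurableSpace k] (μ : Measure k) (w : kˣ) (𝒰 : Ultrafilter ℕ) (ι : S4 k →* E)
    (a : E →* PG k 4) (π : E →* (K →L[ℂ] K)) (lam : Γ →* (K →L[ℂ] K)) (W : Set (K →L[ℂ] K))
    (Ω : κ → K) (m : Set Γ → (K →L[ℂ] K)) (q : Γ → S4 k) : Prop where
  adm : Adm ι a
  hw : ‖(w : k)‖ < 1
  h𝒰 : (𝒰 : Filter ℕ) ≤ atTop
  pic : PicF π lam W Ω
  ms : MsF lam W Ω m
  uc : ∀ i, UC π W (Ω i) m
  ph : PH q
  fin : ∀ C : ℝ, {γ | nm (q γ) ≤ C}.Finite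
  ud : UD q
  orb1 : ORBF μ ι π lam W Ω (B1 w) Sh'
  orb1' : ORBF μ ι π lam W Ω (B1 w) Lg
  orb2 : ORBF μ ι π lam W Ω (B2 w) Lg
  orb2' : ORBF μ ι π lam W Ω (B2 w) Sh'
  size1 : ∀ i, SIZEG (ι (B1 w)) π (Ω i) m fun γ => nm (q γ)
  size2 : ∀ i, SIZEG (ι (B2 w)) π (Ω i) m fun γ => nm (q γ)
  prox1 : ∀ (z : YY k 3) (D : Set (YY k 3)), IsCompact D → (∀ y ∈ D, opp1 y z) →
    ∀ U : Set (YY k 3), IsOpen U → U.Nonempty → ∃ γ, ∀ y ∈ D, q γ • y ∈ U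
  prox2 : ∀ (z : LL k) (D : Set (LL k)), IsCompact D → (∀ y ∈ D, opp2 y z) →
    ∀ U : Set (LL k), IsOpen U → U.Nonempty → ∃ γ, ∀ y ∈ D, q γ • y ∈ U
  nis1 : ∀ φ : C(YY k 3, ℂ) →ₗ[ℂ] ℂ, (∀ f, 0 ≤ (φ (star f * f)).re) → φ 1 = 1 →
    (∀ γ, ∀ f f' : C(YY k 3, ℂ), (∀ x, f' (q γ • x) = f x) → φ f' = φ f) → False
  nis2 : ∀ φ : C(LL k, ℂ) →ₗ[ℂ] ℂ, (∀ f, 0 ≤ (φ (star f * f)).re) → φ 1 = 1 →
    (∀ γ, ∀ f f' : C(LL k, ℂ), (∀ x, f' (q γ • x) = f x) → φ f' = φ f) → False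

/-- `SP.LegP` for a family of vectors -/
structure LegPF [MeasurableSpace k] (μ : Measure k) (w : kˣ) (𝒰 : Ultrafilter ℕ) (ι : S4 k →* E)
    (a : E →* PG k 4) (π : E →* (K →L[ℂ] K)) (lam : Γ →* (K →L[ℂ] K)) (W : Set (K →L[ℂ] K))
    (Ω : κ → K) (m : Set Γ → (K →L[ℂ] K)) (q : Γ → S4 k)
    (U11 : YY k 3 → (C(YY k 3, ℂ) →ₗ[ℂ] (K →L[ℂ] K))) (p11 : ℝ)
    (U12 : YY k 3 → (C(LL k, ℂ) →ₗ[ℂ] (K →L[ℂ] K))) (p12 : ℝ)
    (U21 : LL k → (C(YY k 3, ℂ) →ₗ[ℂ] (K →L[ℂ] K))) (p21 : ℝ)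
    (U22 : LL k → (C(LL k, ℂ) →ₗ[ℂ] (K →L[ℂ] K))) (p22 : ℝ) : Prop where
  base : PBF μ w 𝒰 ι a π lam W Ω m q
  u11 : UFam 𝒰 (B1 w) (y0 : YY k 3) ι π lam W m q (NA1 q) U11 p11
  u12 : UFam 𝒰 (B1 w) (y0 : YY k 3) ι π lam W m q (NA2 q) U12 p12
  u21 : UFam 𝒰 (B2 w) (l0 : LL k) ι π lam W m q (NA1 q) U21 p21
  u22 : UFam 𝒰 (B2 w) (l0 : LL k) ι π lam W m q (NA2 q) U22 p22
  s1 : p11 + p12 = 1
  s2 : p21 + p22 = 1
  i11 : ∀ c l, on c l → ∀ f g, Nin on f g → U11 c f * U22 l g = 0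
  i12 : ∀ c l, on c l → ∀ f g, Nin on f g → U21 l f * U12 c g = 0

/-- the data of one leg of a family -/
def HasLegF [MeasurableSpace k] (μ : Measure k) (w : kˣ) (𝒰 : Ultrafilter ℕ)
    (ι : S4 k →* E) (a : E →* PG k 4) (π : E →* (K →L[ℂ] K)) (lam : Γ →* (K →L[ℂ] K))
    (W : Set (K →L[ℂ] K)) (Ω : κ → K) (m : Set Γ → (K →L[ℂ] K)) (q : Γ → S4 k) : Prop :=
  ∃ (U11 : YY k 3 → (C(YY k 3, ℂ) →ₗ[ℂ] (K →L[ℂ] K))) (p11 : ℝ)
    (U12 : YY k 3 → (C(LL k, ℂ) →ₗ[ℂ] (K →L[ℂ] K))) (p12 : ℝ)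
    (U21 : LL k → (C(YY k 3, ℂ) →ₗ[ℂ] (K →L[ℂ] K))) (p21 : ℝ)
    (U22 : LL k → (C(LL k, ℂ) →ₗ[ℂ] (K →L[ℂ] K))) (p22 : ℝ),
    LegPF μ w 𝒰 ι a π lam W Ω m q U11 p11 U12 p12 U21 p21 U22 p22

end defs

/-! ### The amplification -/

section amp

variable {k : Type} [NontriviallyNormedField k] [ProperSpace k] {E Γ K κ Q : Type}
  [Group E] [TopologicalSpace E] [Group Γ] [NormedAddCommGroup K] [InnerProductSpace ℂ K]
  [CompleteSpace K] [Fintype κ] [Group Q] [Fintype Q]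
  {w : kˣ} {𝒰 : Ultrafilter ℕ} {ι : S4 k →* E} {a : E →* PG k 4} {π : E →* (K →L[ℂ] K)}
  {lam : Γ →* (K →L[ℂ] K)} {W : Set (K →L[ℂ] K)} {Ω : κ → K} {m : Set Γ → (K →L[ℂ] K)}
  {q : Γ → S4 k}

/-- `U ⊗ 1` -/
noncomputable def ampU (Q : Type) [Group Q] [Fintype Q] {Y : Type} [TopologicalSpace Y]
    (U : C(Y, ℂ) →ₗ[ℂ] (K →L[ℂ] K)) : C(Y, ℂ) →ₗ[ℂ] (KT Q K →L[ℂ] KT Q K) where
  toFun f := H333.Amp.amp (U f)
  map_add' f g := by rw [map_add, amp_add]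
  map_smul' z f := by rw [map_smul, amp_smul, RingHom.id_apply]

theorem ampU_ap {Y : Type} [TopologicalSpace Y] (U : C(Y, ℂ) →ₗ[ℂ] (K →L[ℂ] K)) (f : C(Y, ℂ)) :
    ampU Q U f = H333.Amp.amp (U f) := rfl

theorem ul_amp {Y : Type} [TopologicalSpace Y] {U : C(Y, ℂ) →ₗ[ℂ] (K →L[ℂ] K)} {p : ℝ}
    (h : UL U p) : UL (ampU Q U) p where
  one := by rw [ampU_ap, h.one, amp_smul, amp_one]
  star f := by
    rw [ampU_ap, ampU_ap, h.star, star_eq_adjoint, star_eq_adjoint, adjoint_amp]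
  bes n v ξ := by
    have h1 : ∀ x : Q, ∑ i, ‖U (v i) (ξ x)‖ ^ 2 ≤
        (⟪ξ x, U (∑ i, Star.star (v i) * v i) (ξ x)⟫_ℂ).re := fun x => h.bes n v (ξ x)
    have h2 : ∀ i, ‖ampU Q U (v i) ξ‖ ^ 2 = ∑ x, ‖U (v i) (ξ x)‖ ^ 2 := fun i => norm_sq_KT _
    have h3 : ⟪ξ, ampU Q U (∑ i, Star.star (v i) * v i) ξ⟫_ℂ =
        ∑ x, ⟪ξ x, U (∑ i, Star.star (v i) * v i) (ξ x)⟫_ℂ := inner_KT _ _
    simp_rw [h2]
    rw [h3, Complex.re_sum, Finset.sum_comm]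
    exact Finset.sum_le_sum fun x _ => h1 x

variable {X Y : Type} [MulAction (S4 k) X] [TopologicalSpace Y] [CompactSpace Y]
  [MulAction (S4 k) Y] [ContinuousConstSMul (S4 k) Y] {b : S4 k} {v0 : X}
  {NA : ℝ → ℝ → Set Y → Set Γ} {U : X → (C(Y, ℂ) →ₗ[ℂ] (K →L[ℂ] K))} {p : ℝ}

theorem ufam_amp (hm : MsF lam W Ω m) (hN : ∀ R R' T A, R ≤ R' → NA R T A ⊆ NA R' T A)
    (h : UFam 𝒰 b v0 ι π lam W m q NA U p) :
    UFam 𝒰 b v0 ι (ampH Q π) (ampH Q lam) (ampW Q W) (fun S => H333.Amp.amp (Q := Q) (m S)) q NA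
      (fun x => ampU Q (U x)) p where
  ul v := ul_amp (h.ul v)
  cm v f := cm_amp (h.cm v f)
  cov γ v f := by rw [ampU_ap, ampU_ap, ampH_ap, ampH_ap, ← amp_mul, ← amp_mul, h.cov]
  pcov g v f := by rw [ampU_ap, ampU_ap, ampH_ap, ampH_ap, ← amp_mul, ← amp_mul, h.pcov]
  dom g u A hA hu ζ ε hε := by
    have h1 : ∀ x : Q, ∃ R : ℝ, ∀ T > 0, ∀ᶠ t : ℕ in (𝒰 : Filter ℕ),
      ‖U (g • v0) u (ζ x)‖ ≤ ‖u‖ * ‖m (NA R T A)
        (π (ι (g * b ^ t * g⁻¹))⁻¹ (ζ x))‖ + ε / (Fintype.card Q + 1) :=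
      fun x => h.dom g u A hA hu (ζ x) _ (by positivity)
    choose R hR using h1
    obtain ⟨R', hR'⟩ := (Set.finite_range R).bddAbove
    refine ⟨R', fun T hT => ?_⟩
    filter_upwards [Filter.eventually_all.2 fun x => hR x T hT] with t ht
    refine norm_le_coord (norm_nonneg _) hε.le fun x => ?_
    have h2 : ‖m (NA (R x) T A) (π (ι (g * b ^ t * g⁻¹))⁻¹ (ζ x))‖ ≤
        ‖m (NA R' T A) (π (ι (g * b ^ t * g⁻¹))⁻¹ (ζ x))‖ :=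
      hm.mono (hN _ _ T A (hR' ⟨x, rfl⟩)) _
    have h3 : ‖(ampU Q (U (g • v0)) u) ζ x‖ = ‖U (g • v0) u (ζ x)‖ := rfl
    have h4 : ‖(H333.Amp.amp (Q := Q) (m (NA R' T A)))
        (ampH Q π (ι (g * b ^ t * g⁻¹))⁻¹ ζ) x‖ =
        ‖m (NA R' T A) (π (ι (g * b ^ t * g⁻¹))⁻¹ (ζ x))‖ := rfl
    rw [h3, h4]
    exact (ht x).trans (add_le_add_left (mul_le_mul_of_nonneg_left h2 (norm_nonneg _)) _)
  agr hp v v' hv ξ hξ := by
    apply ext_co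
    intro z
    refine h.agr hp v v' hv (ξ z) fun f => ?_
    exact congrArg (fun v : KT Q K => v z) (hξ f)

theorem nm_nonneg (h : S4 k) : 0 ≤ nm h := norm_nonneg _

theorem NW1_mono {R R' : ℝ} (hR : R ≤ R') {h : S4 k} (hh : NW1 R h) : NW1 R' h :=
  hh.trans (mul_le_mul_of_nonneg_right hR (nm_nonneg h))

theorem NW2_mono {R R' : ℝ} (hR : R ≤ R') {h : S4 k} (hh : NW2 R h) : NW2 R' h :=
  hh.trans (mul_le_mul_of_nonneg_right hR (norm_nonneg _))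

theorem NA1_mono (q : Γ → S4 k) : ∀ (R R' T : ℝ) (A : Set (YY k 3)), R ≤ R' →
    NA1 q R T A ⊆ NA1 q R' T A :=
  fun _ _ _ _ hR _ h => ⟨NW1_mono hR h.1, h.2⟩

theorem NA2_mono (q : Γ → S4 k) : ∀ (R R' T : ℝ) (A : Set (LL k)), R ≤ R' →
    NA2 q R T A ⊆ NA2 q R' T A :=
  fun _ _ _ _ hR _ h => ⟨NW2_mono hR h.1, h.2⟩

theorem continuous_root {n : k → S4 k} (h : ∀ i j, Continuous fun s => (n s).1.1 i j) :
    Continuous n := by
  refine continuous_induced_rng.2 (continuous_induced_rng.2 ?_)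
  exact continuous_pi fun i => continuous_pi fun j => h i j

theorem cont_Lg : Continuous fun s : k => Lg s := by
  refine continuous_root fun i j => ?_
  change Continuous fun s : k => (lg s).1 i j
  fin_cases i <;> fin_cases j <;> simp [lg] <;> fun_prop

theorem cont_Sh' : Continuous fun s : k => Sh' s := by
  refine continuous_root fun i j => ?_
  change Continuous fun s : k => (sh' s).1 i j
  fin_cases i <;> fin_cases j <;> simp [sh'] <;> fun_prop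

theorem orb_amp [MeasurableSpace k] [OpensMeasurableSpace k] {μ : Measure k} {n : k → S4 k}
    (ha : Adm ι a) (hn : Continuous n) (hc : ∀ ξ, Continuous fun g => π g ξ)
    (h : ORBF μ ι π lam W Ω b n) (j : κ ↪ Q) :
    ORB μ ι (ampH Q π) (ampH Q lam) (ampW Q W) (ampO j Ω) b n := by
  haveI := ha.tg
  obtain ⟨ρ, h0, h1, h2⟩ := h
  exact ⟨ρ, h0, h1, orb_ampG (ha.cι.comp hn) hc h0.le h2 j⟩

/-- **The amplified leg has one vector.** `hp` is the amplified picture. -/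
theorem leg_amp [MeasurableSpace k] [OpensMeasurableSpace k] {μ : Measure k}
    {U11 : YY k 3 → (C(YY k 3, ℂ) →ₗ[ℂ] (K →L[ℂ] K))} {p11 : ℝ}
    {U12 : YY k 3 → (C(LL k, ℂ) →ₗ[ℂ] (K →L[ℂ] K))} {p12 : ℝ}
    {U21 : LL k → (C(YY k 3, ℂ) →ₗ[ℂ] (K →L[ℂ] K))} {p21 : ℝ}
    {U22 : LL k → (C(LL k, ℂ) →ₗ[ℂ] (K →L[ℂ] K))} {p22 : ℝ}
    (h : LegPF μ w 𝒰 ι a π lam W Ω m q U11 p11 U12 p12 U21 p21 U22 p22) (j : κ ↪ Q)
    (hp : RC.PicX (ampH Q π) (ampH Q lam) (ampW Q W) (ampO j Ω)) :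
    SP.X.LegP μ w 𝒰 ι a (ampH Q π) (ampH Q lam) (ampW Q W) (ampO j Ω)
      (fun S => H333.Amp.amp (Q := Q) (m S)) q (fun x => ampU Q (U11 x)) p11
      (fun x => ampU Q (U12 x)) p12 (fun x => ampU Q (U21 x)) p21 (fun x => ampU Q (U22 x)) p22 where
  base :=
    { adm := h.base.adm
      hw := h.base.hw
      h𝒰 := h.base.h𝒰
      pic := hp
      ms := h.base.ms.amp j
      uc := uc_ampG h.base.uc j
      ph := h.base.ph
      fin := h.base.fin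
      ud := h.base.ud
      orb1 := orb_amp h.base.adm cont_Sh' h.base.pic.contP h.base.orb1 j
      orb1' := orb_amp h.base.adm cont_Lg h.base.pic.contP h.base.orb1' j
      orb2 := orb_amp h.base.adm cont_Lg h.base.pic.contP h.base.orb2 j
      orb2' := orb_amp h.base.adm cont_Sh' h.base.pic.contP h.base.orb2' j
      size1 := size_ampG h.base.size1 j
      size2 := size_ampG h.base.size2 j
      prox1 := h.base.prox1
      prox2 := h.base.prox2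
      nis1 := h.base.nis1
      nis2 := h.base.nis2 }
  u11 := ufam_amp h.base.ms (NA1_mono q) h.u11
  u12 := ufam_amp h.base.ms (NA2_mono q) h.u12
  u21 := ufam_amp h.base.ms (NA1_mono q) h.u21
  u22 := ufam_amp h.base.ms (NA2_mono q) h.u22
  s1 := h.s1
  s2 := h.s2
  i11 c l hcl f g hfg := by
    rw [ampU_ap, ampU_ap, ← amp_mul, h.i11 c l hcl f g hfg, amp_zero]
  i12 c l hcl f g hfg := by
    rw [ampU_ap, ampU_ap, ← amp_mul, h.i12 c l hcl f g hfg, amp_zero]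

/-- the same for all sufficiently large amplifications -/
theorem exists_leg_amp [MeasurableSpace k] [OpensMeasurableSpace k] {μ : Measure k}
    (h : HasLegF μ w 𝒰 ι a π lam W Ω m q) :
    ∃ n : ℕ, ∀ (Q : Type) [Group Q] [Fintype Q], n ≤ Fintype.card Q → ∀ j : κ ↪ Q,
      SP.X.HasLeg μ w 𝒰 ι a (ampH Q π) (ampH Q lam) (ampW Q W) (ampO j Ω)
        (fun S => H333.Amp.amp (Q := Q) (m S)) q := by
  obtain ⟨U11, p11, U12, p12, U21, p21, U22, p22, h⟩ := h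
  obtain ⟨n, hn⟩ := h.base.pic.exists_amp
  exact ⟨n, fun Q _ _ hQ j => ⟨_, p11, _, p12, _, p21, _, p22, leg_amp h j (hn Q hQ j)⟩⟩

end amp

end Vale.Agent.P092.SP.X
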