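import Vale.Agent.P092.SPT.Main
import Vale.Agent.P092.SNT.Flip
import Vale.Agent.P092.SP.Tw

/-!
P092, TEAM P, all amplifications (helper421): transport of the leg of a family of vectors along a
unitary; the second leg of the model `HH (PT α α α)` from the first one.
-/

set_option linter.all false

open scoped InnerProductSpace ENNReal LinearAlgebra.Projectivization ZeroAtInfty
open Filter Topology ContinuousLinearMap MeasureTheory TopologicalSpace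

namespace Vale.Agent.P092.SP.X

open Vale.Agent.P092.SP
open Vale.Agent.P092.SP4
open Vale.Agent.P092.RC (cj cj_ap cj_comm cm_cj norm_cj adjoint_cj Cm TRN TRNF Moore GG PG YY y0
  PicF Tw adjV3)
open Vale.Agent.P092.SD (MsF UC tw_uc)
open Vale.Agent.P092.SNT (ORBGF TwF tw_picF tw_msF tw_orbgF twF_flip)
open Vale.Agent.P092.SP.Tw (tw_sizeg cjU cjU_ap tw_ufam)
open Vale.Agent.P092.H790.CTA (ORBG SIZEG)
open Vale.Agent.P092.H35 (sp)
open Vale.Agent.P092.H85 (cdat)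
open Vale.Agent.P092.H515.St (IsLattice LocK)

section leg

variable {k : Type} [NontriviallyNormedField k] [ProperSpace k] {K K' κ : Type}
  [Fintype κ] [NormedAddCommGroup K] [InnerProductSpace ℂ K] [CompleteSpace K]
  [NormedAddCommGroup K'] [InnerProductSpace ℂ K'] [CompleteSpace K'] {u : K ≃ₗᵢ[ℂ] K'}
  {E Γ : Type} [Group E] [TopologicalSpace E] [Group Γ]
  {π : E →* (K →L[ℂ] K)} {lam : Γ →* (K →L[ℂ] K)}
  {W : Set (K →L[ℂ] K)} {Ω : κ → K} {π' : E →* (K' →L[ℂ] K')} {lam' : Γ →* (K' →L[ℂ] K')}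
  {W' : Set (K' →L[ℂ] K')} {Ω' : κ → K'} {w : kˣ} {q : Γ → S4 k} {𝒰 : Ultrafilter ℕ}
  {m : Set Γ → (K →L[ℂ] K)} {ι : S4 k →* E} {a : E →* PG k 4}

theorem tw_orbF [MeasurableSpace k] {μ : Measure k} {b : S4 k} {n : k → S4 k}
    (t : TwF u π lam W Ω π' lam' W' Ω') (h : ORBF μ ι π lam W Ω b n) :
    ORBF μ ι π' lam' W' Ω' b n := by
  obtain ⟨ρ, h1, h2, h3⟩ := h
  exact ⟨ρ, h1, h2, tw_orbgF t h3⟩

theorem tw_pbF [MeasurableSpace k] {μ : Measure k} (t : TwF u π lam W Ω π' lam' W' Ω')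
    (h : PBF μ w 𝒰 ι a π lam W Ω m q) :
    PBF μ w 𝒰 ι a π' lam' W' Ω' (fun S => cj u (m S)) q where
  adm := h.adm
  hw := h.hw
  h𝒰 := h.h𝒰
  pic := tw_picF t h.pic
  ms := tw_msF t h.ms
  uc i := tw_uc (t.one i) (h.uc i)
  ph := h.ph
  fin := h.fin
  ud := h.ud
  orb1 := tw_orbF t h.orb1
  orb1' := tw_orbF t h.orb1'
  orb2 := tw_orbF t h.orb2
  orb2' := tw_orbF t h.orb2'
  size1 i := tw_sizeg (t.one i) (h.size1 i)
  size2 i := tw_sizeg (t.one i) (h.size2 i)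
  prox1 := h.prox1
  prox2 := h.prox2
  nis1 := h.nis1
  nis2 := h.nis2

/-- the limit maps do not see the vector; transport with the zero vector -/
theorem tw_ufamF {X Y : Type} [MulAction (S4 k) X] [TopologicalSpace Y] [CompactSpace Y]
    [MulAction (S4 k) Y] [ContinuousConstSMul (S4 k) Y] {b : S4 k} {v0 : X}
    {NA : ℝ → ℝ → Set Y → Set Γ} {U : X → (C(Y, ℂ) →ₗ[ℂ] (K →L[ℂ] K))} {p : ℝ}
    (t : TwF u π lam W Ω π' lam' W' Ω') (h : UFam 𝒰 b v0 ι π lam W m q NA U p) :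
    UFam 𝒰 b v0 ι π' lam' W' (fun S => cj u (m S)) q NA (fun x => cjU u (U x)) p :=
  tw_ufam (Ω := 0) (Ω' := 0) ⟨t.pi, t.lam, t.W, (map_zero u).symm⟩ h

/-- **Transport of a leg with a family of vectors.** -/
theorem tw_legPF [MeasurableSpace k] {μ : Measure k}
    {U11 : YY k 3 → (C(YY k 3, ℂ) →ₗ[ℂ] (K →L[ℂ] K))} {p11 : ℝ}
    {U12 : YY k 3 → (C(LL k, ℂ) →ₗ[ℂ] (K →L[ℂ] K))} {p12 : ℝ}
    {U21 : LL k → (C(YY k 3, ℂ) →ₗ[ℂ] (K →L[ℂ] K))} {p21 : ℝ}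
    {U22 : LL k → (C(LL k, ℂ) →ₗ[ℂ] (K →L[ℂ] K))} {p22 : ℝ}
    (t : TwF u π lam W Ω π' lam' W' Ω')
    (h : LegPF μ w 𝒰 ι a π lam W Ω m q U11 p11 U12 p12 U21 p21 U22 p22) :
    LegPF μ w 𝒰 ι a π' lam' W' Ω' (fun S => cj u (m S)) q (fun x => cjU u (U11 x)) p11
      (fun x => cjU u (U12 x)) p12 (fun x => cjU u (U21 x)) p21 (fun x => cjU u (U22 x)) p22 where
  base := tw_pbF t h.base
  u11 := tw_ufamF t h.u11
  u12 := tw_ufamF t h.u12
  u21 := tw_ufamF t h.u21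
  u22 := tw_ufamF t h.u22
  s1 := h.s1
  s2 := h.s2
  i11 c l hcl f g hfg := by
    rw [cjU_ap, cjU_ap, ← map_mul, h.i11 c l hcl f g hfg, map_zero]
  i12 c l hcl f g hfg := by
    rw [cjU_ap, cjU_ap, ← map_mul, h.i12 c l hcl f g hfg, map_zero]

/-- **Transport of the data of a leg.** -/
theorem tw_hasLegF [MeasurableSpace k] {μ : Measure k} (t : TwF u π lam W Ω π' lam' W' Ω')
    (h : HasLegF μ w 𝒰 ι a π lam W Ω m q) :
    HasLegF μ w 𝒰 ι a π' lam' W' Ω' (fun S => cj u (m S)) q := by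
  obtain ⟨U11, p11, U12, p12, U21, p21, U22, p22, h⟩ := h
  exact ⟨_, p11, _, p12, _, p21, _, p22, tw_legPF t h⟩

end leg

section half

open Vale.Agent.P092.SR Vale.Agent.P092.H160 Vale.Agent.P092.H103 Vale.Agent.P092.H962
open Vale.Agent.P092.SDT (sT sT_sq sT_adj sT_V sT_A sT_B)

/-- **[P-HALF-T]** the first leg of the concrete picture over a source group `E`, all
amplifications. The family `Ω` is free. -/
def ExHalfT (k : Type) [NontriviallyNormedField k] [ProperSpace k] [MeasurableSpace k]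
    (μ : Measure k) {E : Type} [Group E] [TopologicalSpace E]
    [IsTopologicalGroup E] [LocallyCompactSpace E] [SecondCountableTopology E] [T2Space E]
    (ι : S4 k →* E) (a : E →* PG k 4) : Prop :=
  ∀ [MeasurableSpace E] [BorelSpace E] {Γ : Subgroup E} [DiscreteTopology Γ] [Countable Γ]
    [MeasurableSpace (E ⧸ Γ)] [BorelSpace (E ⧸ Γ)] {ν : Measure (E ⧸ Γ)}
    [IsProbabilityMeasure ν] (hν : ∀ g : E, ν.map (fun x => g • x) = ν)
    (_ : IsLattice Γ) (_ : ∀ g : Γ, g ≠ 1 → Set.Infinite {y : Γ | ∃ h, y = h * g * h⁻¹})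
    {Λ : Type} [Group Λ] [Countable Λ]
    (_ : ∀ g : Λ, g ≠ 1 → Set.Infinite {y : Λ | ∃ h, y = h * g * h⁻¹})
    {I : Type} [Fintype I] {α : Γ → (Ell2 (I × Λ) →L[ℂ] Ell2 (I × Λ))} (hα : AF α),
    ∃ (w : kˣ) (𝒰 : Ultrafilter ℕ) (κ : Type) (_ : Fintype κ)
      (Ω : κ → Lp (HH (PT α α α)) 2 (cdat ν hν).μ)
      (m : Set Γ → (Lp (HH (PT α α α)) 2 (cdat ν hν).μ →L[ℂ]
        Lp (HH (PT α α α)) 2 (cdat ν hν).μ)) (q : Γ → S4 k),
      HasLegF μ w 𝒰 ι a (H34.Ind.pi (cdat ν hν) (V := V3 hα hα hα) (adjV3 hα))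
        (H34.Ind.lam (cdat ν hν) (A3R hα hα hα))
        (H34.Ind.Xset (cdat ν hν) (HH (PT α α α)) ∪
          Set.range (H34.Ind.lam (cdat ν hν) (B3R hα hα hα))) Ω m q ∧
      (∀ γ, sp k 4 (q γ).1 = 1 → γ = 1)

/-- **The second leg is the flip of the first one.** -/
theorem exT_of_half {k : Type} [NontriviallyNormedField k] [ProperSpace k] [MeasurableSpace k]
    {μ : Measure k} {E : Type} [Group E] [TopologicalSpace E]
    [IsTopologicalGroup E] [LocallyCompactSpace E] [SecondCountableTopology E] [T2Space E]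
    {ι : S4 k →* E} {a : E →* PG k 4} (h : ExHalfT k μ ι a) : ExStmtT k μ ι a := by
  intro _ _ Γ _ _ _ _ ν _ hν hΓ hicc Λ _ _ hΛ I _ α hα
  obtain ⟨w, 𝒰, κ, iκ, Ω, m, q, l1, h1⟩ := h (Γ := Γ) hν hΓ hicc hΛ hα
  exact ⟨w, 𝒰, κ, κ, iκ, iκ, Ω, _, m, _, q, q, l1,
    tw_hasLegF (twF_flip hν (sT_sq hα) (sT_adj hα) (sT_V hα) (sT_A hα) (sT_B hα) (adjV3 hα) Ω) l1,
    h1, h1⟩

end half

end Vale.Agent.P092.SP.X
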