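import Vale.Agent.P092.SP.Leg1
import Vale.Agent.P092.SPT.Amp
import Vale.Agent.P092.SPT.AgrT
import Vale.Agent.P092.SPT.EngF

/-!
P092, Team P, all amplifications (helper421): the four families of one leg (SP/Leg1 of helper805) for
a picture with a finite family of vectors, from the inputs of the engine.
-/

set_option linter.all false

open scoped InnerProductSpace ENNReal LinearAlgebra.Projectivization
open Filter Topology ContinuousLinearMap MeasureTheory TopologicalSpace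

namespace Vale.Agent.P092.SP.X

open Vale.Agent.P092.SP
open Vale.Agent.P092.RC (Cm Moore PG YY GG y0 PicF)
open Vale.Agent.P092.SD (MsF)
open Vale.Agent.P092.SP4
open Vale.Agent.P092.H933 (LocK)
open Vale.Agent.P092.H486.Eng (UFamE GeoU)
open Vale.Agent.P092.H859.CL (st BB FF pw Esc Slow Leg)
open Vale.Agent.P092.H43 (Loc2)
open Vale.Agent.P092.H76.Pur (NIS Cov)
open Vale.Agent.P092.H899.T (l1 l2 bpt bln)

section fam

variable {k : Type} [NontriviallyNormedField k] [ProperSpace k] {E Γ K κ : Type} [Group E]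
  [TopologicalSpace E] [Group Γ] [NormedAddCommGroup K] [InnerProductSpace ℂ K] [CompleteSpace K]
  [Fintype κ]
  {ι : S4 k →* E} {π : E →* (K →L[ℂ] K)} {lam : Γ →* (K →L[ℂ] K)} {W : Set (K →L[ℂ] K)}
  {Ω : κ → K}
  {mp : (Γ → ℝ) → (K →L[ℂ] K)} {q : Γ → S4 k} {𝒰 : Ultrafilter ℕ}
  {X Y : Type} [MulAction (S4 k) X] [MulAction E X] [TopologicalSpace Y] [CompactSpace Y]
  [MulAction (S4 k) Y] [ContinuousConstSMul (S4 k) Y] [MulAction Γ Y]

/-- a family of the engine in the letters of `SP/Defs` -/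
theorem ufam_ofF (hX : ∀ (g : S4 k) (x : X), ι g • x = g • x)
    (hY : ∀ (γ : Γ) (y : Y), γ • y = q γ • y) (hs : Function.Surjective ι) (hp : PicF π lam W Ω)
    {B : S4 k} {z0 : X} {U : X → (C(Y, ℂ) →ₗ[ℂ] (K →L[ℂ] K))} {p : ℝ} {G1 G2 : Γ → ℝ}
    {bp : Γ → Y} {NA : ℝ → ℝ → Set Y → Set Γ}
    (hU : UFamE mp π lam W (ι B) G1 G2 bp 𝒰 NA z0 U p) (hNI : NIS fun γ (y : Y) => q γ • y)
    (hS : ∀ v v' : X, Moore (ι '' {h : S4 k | h • v = v ∧ h • v' = v'}))
    (hgen : ∀ v v' : X, v ≠ v' →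
      Subgroup.closure ({h : S4 k | h • v = v} ∪ {h : S4 k | h • v' = v'}) = ⊤) :
    UFam 𝒰 B z0 ι π lam W (st mp) q NA U p where
  ul := hU.ul
  cm := hU.cm
  cov γ v f := hU.cov γ v f _ fun y => by
    rw [hY]
    change f ((q γ)⁻¹ • q γ • y) = f y
    rw [inv_smul_smul]
  pcov g v f := by
    rw [← hX]
    exact hU.pcov (ι g) v f
  dom g u A hA hu ζ ε hε := by
    obtain ⟨R, hR⟩ := hU.dom (ι g) u A hA hu ζ ε hε
    refine ⟨R, fun T hT => ?_⟩
    filter_upwards [hR T hT] with N hN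
    have e : ι (g * B ^ N * g⁻¹) = ι g * ι B ^ N * (ι g)⁻¹ := by
      rw [map_mul, map_mul, map_inv, map_pow]
    rw [← hX, e]
    exact hN
  agr hp0 v v' hne := agr_famF hp ι hs hU.ul hp0 hU.cm
    (H494.PAg.hact_of_act q) hNI
    (fun v γ f f' hf => hU.cov γ v f f' fun y => by rw [hY]; exact hf y)
    (fun h v f => by rw [← hX]; exact hU.pcov (ι h) v f) (hS v v') (hgen v v' hne)

end fam

section src

variable {k : Type} [NontriviallyNormedField k] [ProperSpace k] {E : Type} [Group E]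
  [TopologicalSpace E] {ι : S4 k →* E} {a : E →* PG k 4}

theorem hst1F (h : Adm ι a) {w : kˣ} (hw : ‖(w : k)‖ < 1) :
    letI := actP a
    ∀ e : E, e • (y0 : YY k 3) = y0 → ∃ v n : E, e = v * n ∧ v * ι (B1 w) = ι (B1 w) * v ∧
      Tendsto (fun N : ℕ => (ι (B1 w) ^ N)⁻¹ * n * ι (B1 w) ^ N) atTop (𝓝 1) := by
  letI := actP a
  intro e he
  obtain ⟨g, rfl⟩ := h.sur e
  rw [actP_ι h] at he
  exact H899.P.map_par h.cι (H899.P.stab_y0 hw he)

theorem hst2F (h : Adm ι a) {w : kˣ} (hw : ‖(w : k)‖ < 1) :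
    letI := actL h
    ∀ e : E, e • (l0 : LL k) = l0 → ∃ v n : E, e = v * n ∧ v * ι (B2 w) = ι (B2 w) * v ∧
      Tendsto (fun N : ℕ => (ι (B2 w) ^ N)⁻¹ * n * ι (B2 w) ^ N) atTop (𝓝 1) := by
  letI := actL h
  intro e he
  obtain ⟨g, rfl⟩ := h.sur e
  rw [actL_ι h] at he
  exact H899.P.map_par h.cι (H899.P.stab_l0 hw he)

end src

section leg

variable {k : Type} [NontriviallyNormedField k] [ProperSpace k] [MeasurableSpace k]
  {μ : Measure k} {E Γ K κ : Type} [Group E] [TopologicalSpace E] [Group Γ]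
  [NormedAddCommGroup K] [InnerProductSpace ℂ K] [CompleteSpace K] [Fintype κ]
  {ι : S4 k →* E} {a : E →* PG k 4} {π : E →* (K →L[ℂ] K)} {lam : Γ →* (K →L[ℂ] K)}
  {W : Set (K →L[ℂ] K)} {Ω : κ → K} {mp : (Γ → ℝ) → (K →L[ℂ] K)} {Bd Bf : Set K}
  {ms : E → Set Γ → ℝ} {A A' : Subgroup E} {q : Γ → S4 k} {w : kˣ} {𝒰 : Ultrafilter ℕ}

/-- The engine's inputs of one wall `b` of the source (helper486's `WallIn`). -/
structure WallInF (mp : (Γ → ℝ) → (K →L[ℂ] K)) (π : E →* (K →L[ℂ] K)) (Bd : Set K)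
    (ms : E → Set Γ → ℝ) (q : Γ → S4 k) (b : E) : Prop where
  s12 : H859.CL.SysF mp (fun g => π g) Bd ms (Subgroup.zpowers b) (fun γ => l1 (q γ))
    fun γ => l2 (q γ)
  s21 : H859.CL.SysF mp (fun g => π g) Bd ms (Subgroup.zpowers b) (fun γ => l2 (q γ))
    fun γ => l1 (q γ)
  esc : Esc (st mp) (fun g => π g) Bd (Subgroup.zpowers b) (pw b⁻¹)

/-- **One leg**, families of vectors: the four families and exact incidence from the inputs of the
engine. -/
theorem legF_of (hb : PBF μ w 𝒰 ι a π lam W Ω (st mp) q)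
    (hL : Leg mp (fun g => π g) (fun γ => lam γ) W) (hS : Slow mp (fun g => π g) Bd)
    (hloc : Loc2 mp (fun g => π g) Bd Bf) (hW1 : WallInF mp π Bd ms q (ι (B1 w)))
    (hW2 : WallInF mp π Bd ms q (ι (B2 w))) : HasLegF μ w 𝒰 ι a π lam W Ω (st mp) q := by
  have h := hb.adm
  have hw := hb.hw
  have h𝒰 := hb.h𝒰
  have hph := hb.ph
  have hfin := hb.fin
  have hp := hb.pic
  have hms := hb.ms
  have hE : Erg π lam W := hp.erg
  obtain ⟨v0, hv0⟩ := exists_unit hp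
  have s11 := H486.Eng.sysF_cn hW1.s12
  have s12 := H486.Eng.sysF_cn hW1.s21
  have s21 := H486.Eng.sysF_cn hW2.s12
  have s22 := H486.Eng.sysF_cn hW2.s21
  have e1 := hW1.esc
  have e2 := hW2.esc
  have f12 : ∀ r, (FF (fun γ => l1 (q γ)) (fun γ => l2 (q γ)) r).Finite :=
    fun r => H899.T.fin_l hfin r
  have f21 : ∀ r, (FF (fun γ => l2 (q γ)) (fun γ => l1 (q γ)) r).Finite :=
    fun r => (H899.T.fin_l hfin r).subset fun γ hγ => ⟨hγ.2, hγ.1⟩
  -- the four families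
  letI aP : MulAction E (YY k 3) := actP a
  letI aL : MulAction E (LL k) := actL h
  letI gP : MulAction Γ (YY k 3) := H899.T.actP hph
  letI gL : MulAction Γ (LL k) := H899.T.actL hph
  have t1 : ∀ z : YY k 3, ∃ g : E, g • (y0 : YY k 3) = z := fun z => by
    obtain ⟨g, hg⟩ := trans_pt (y0 : YY k 3) z
    exact ⟨ι g, (actP_ι h g _).trans hg⟩
  have t2 : ∀ z : LL k, ∃ g : E, g • (l0 : LL k) = z := fun z => by
    obtain ⟨g, hg⟩ := trans_ln (l0 : LL k) z
    exact ⟨ι g, (actL_ι h g _).trans hg⟩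
  obtain ⟨U11, p11, -, -, F11⟩ := ufam_gen (Y := YY k 3) (Z := YY k 3) (z0 := y0) h𝒰 hE hv0
    (moore_p h y0)
    s11 hL (H899.T.geoU_pt hph hfin) hS hloc e1 (H899.T.domCut_pt q) t1 (hst1F h hw)
  obtain ⟨U12, p12, -, -, F12⟩ := ufam_gen (Y := LL k) (Z := YY k 3) (z0 := y0) h𝒰 hE hv0
    (moore_p h y0)
    s12 hL (H899.T.geoU_ln hph hfin) hS hloc e1 (H899.T.domCut_ln q) t1 (hst1F h hw)
  obtain ⟨U21, p21, -, -, F21⟩ := ufam_gen (Y := YY k 3) (Z := LL k) (z0 := l0) h𝒰 hE hv0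
    (moore_l h l0)
    s21 hL (H899.T.geoU_pt hph hfin) hS hloc e2 (H899.T.domCut_pt q) t2 (hst2F h hw)
  obtain ⟨U22, p22, -, -, F22⟩ := ufam_gen (Y := LL k) (Z := LL k) (z0 := l0) h𝒰 hE hv0
    (moore_l h l0)
    s22 hL (H899.T.geoU_ln hph hfin) hS hloc e2 (H899.T.domCut_ln q) t2 (hst2F h hw)
  have x1 : ∀ (g : S4 k) (x : YY k 3), ι g • x = g • x := actP_ι h
  have x2 : ∀ (g : S4 k) (x : LL k), ι g • x = g • x := actL_ι h
  have m1 : ∀ v v' : YY k 3, Moore (ι '' {g : S4 k | g • v = v ∧ g • v' = v'}) := moore_pp' h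
  have m2' : ∀ v v' : LL k, Moore (ι '' {g : S4 k | g • v = v ∧ g • v' = v'}) := moore_ll' h
  refine ⟨U11, p11, U12, p12, U21, p21, U22, p22,
    { base := hb
      u11 := ?_
      u12 := ?_
      u21 := ?_
      u22 := ?_
      s1 := sum_one_gen h𝒰 hv0 s11 f12 e1 F11 F12
      s2 := sum_one_gen h𝒰 hv0 s21 f12 e2 F21 F22
      i11 := ?_
      i12 := ?_ }⟩
  · exact ufam_ofF (q := q) x1 (fun _ _ => rfl) h.sur hp F11 hb.nis1 m1 fun v v' hne =>
      gen_pp' hne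
  · exact ufam_ofF (q := q) x1 (fun _ _ => rfl) h.sur hp F12 hb.nis2 m1 fun v v' hne =>
      gen_pp' hne
  · exact ufam_ofF (q := q) x2 (fun _ _ => rfl) h.sur hp F21 hb.nis1 m2' fun v v' hne =>
      gen_ll' hne
  · exact ufam_ofF (q := q) x2 (fun _ _ => rfl) h.sur hp F22 hb.nis2 m2' fun v v' hne =>
      gen_ll' hne
  · intro c l hcl f g hfg
    obtain ⟨u, hu1, hu2⟩ := trans_flag (on_y0_l0 (k := k)) hcl
    have hov := H923.PI.ovl12 hph hb.ud (isClosed_tsupport f) (isClosed_tsupport g) hfg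
    have hI := ufam_incF h𝒰 h𝒰 hp hms s11 s22 hL hS hS e1 e2 f12 f21 F11 F22 (ι u) (ι u)
      (moore_SLg h u) (contr_SLg h u (contr_Lg1 hw)) (contr_SLg h u (contr_Lg2 hw)) f g hov
    have := hI.1
    rw [x1, x2, hu1, hu2] at this
    exact this
  · intro c l hcl f g hfg
    obtain ⟨u, hu1, hu2⟩ := trans_flag (on_y0_l0 (k := k)) hcl
    have hov := H923.PI.ovl12 hph hb.ud (isClosed_tsupport f) (isClosed_tsupport g) hfg
    have hI := ufam_incF h𝒰 h𝒰 hp hms s21 s12 hL hS hS e2 e1 f12 f21 F21 F12 (ι u) (ι u)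
      (moore_SLg h u) (contr_SLg h u (contr_Lg2 hw)) (contr_SLg h u (contr_Lg1 hw)) f g hov
    have := hI.1
    rw [x1, x2, hu1, hu2] at this
    exact this

end leg

end Vale.Agent.P092.SP.X
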