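import Vale.Agent.P092.SP.Blocks
import Vale.Agent.P092.SNT.X

/-!
P092, TEAM P, all amplifications (helper421): the records and the joints of SP/Defs, SP/Blocks,
SP/Blocks2 for the picture `RC.PicX` (`RC.Pic` with the existential form of the field `inv`).
`UFam`, `HFam`, `Key1`, `Key2`, `Com`, `SynStmt`, `FlipStmt` do not see the picture and are used as
they are. Every `Stmt` is a literal `Prop`.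
-/

set_option linter.all false

open scoped InnerProductSpace ENNReal LinearAlgebra.Projectivization ZeroAtInfty
open Filter Topology ContinuousLinearMap MeasureTheory TopologicalSpace

namespace Vale.Agent.P092.SP.X

open Vale.Agent.P092.SD (Ms UC)
open Vale.Agent.P092.RC (Cm TRN Moore GG PG YY y0)
open Vale.Agent.P092.H790.CTA (ORBG SIZEG)
open Vale.Agent.P092.H232 (Nin)
open Vale.Agent.P092.SP4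
open Vale.Agent.P092.SP
open Vale.Agent.P092.SN (ClsN TVE)
open Vale.Agent.P092.H35 (sp)

section pic

variable {k : Type} [NontriviallyNormedField k] [ProperSpace k] {E Γ K : Type} [Group E]
  [TopologicalSpace E] [Group Γ] [NormedAddCommGroup K] [InnerProductSpace ℂ K] [CompleteSpace K]

/-- `SP.PB` for the picture `RC.PicX` -/
structure PB [MeasurableSpace k] (μ : Measure k) (w : kˣ) (𝒰 : Ultrafilter ℕ) (ι : S4 k →* E)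
    (a : E →* PG k 4) (π : E →* (K →L[ℂ] K)) (lam : Γ →* (K →L[ℂ] K)) (W : Set (K →L[ℂ] K))
    (Ω : K) (m : Set Γ → (K →L[ℂ] K)) (q : Γ → S4 k) : Prop where
  adm : Adm ι a
  hw : ‖(w : k)‖ < 1
  h𝒰 : (𝒰 : Filter ℕ) ≤ atTop
  pic : RC.PicX π lam W Ω
  ms : Ms lam W Ω m
  uc : UC π W Ω m
  ph : PH q
  fin : ∀ C : ℝ, {γ | nm (q γ) ≤ C}.Finite
  ud : UD q
  orb1 : ORB μ ι π lam W Ω (B1 w) Sh'
  orb1' : ORB μ ι π lam W Ω (B1 w) Lg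
  orb2 : ORB μ ι π lam W Ω (B2 w) Lg
  orb2' : ORB μ ι π lam W Ω (B2 w) Sh'
  size1 : SIZEG (ι (B1 w)) π Ω m fun γ => nm (q γ)
  size2 : SIZEG (ι (B2 w)) π Ω m fun γ => nm (q γ)
  /-- proximality of the target (helper673) -/
  prox1 : ∀ (z : YY k 3) (D : Set (YY k 3)), IsCompact D → (∀ y ∈ D, opp1 y z) →
    ∀ U : Set (YY k 3), IsOpen U → U.Nonempty → ∃ γ, ∀ y ∈ D, q γ • y ∈ U
  prox2 : ∀ (z : LL k) (D : Set (LL k)), IsCompact D → (∀ y ∈ D, opp2 y z) →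
    ∀ U : Set (LL k), IsOpen U → U.Nonempty → ∃ γ, ∀ y ∈ D, q γ • y ∈ U
  /-- no `Γ`-invariant state on the functions of points -/
  nis1 : ∀ φ : C(YY k 3, ℂ) →ₗ[ℂ] ℂ, (∀ f, 0 ≤ (φ (star f * f)).re) → φ 1 = 1 →
    (∀ γ, ∀ f f' : C(YY k 3, ℂ), (∀ x, f' (q γ • x) = f x) → φ f' = φ f) → False
  /-- no `Γ`-invariant state on the functions of lines -/
  nis2 : ∀ φ : C(LL k, ℂ) →ₗ[ℂ] ℂ, (∀ f, 0 ≤ (φ (star f * f)).re) → φ 1 = 1 →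
    (∀ γ, ∀ f f' : C(LL k, ℂ), (∀ x, f' (q γ • x) = f x) → φ f' = φ f) → False

/-- `SP.LegP` for the picture `RC.PicX` -/
structure LegP [MeasurableSpace k] (μ : Measure k) (w : kˣ) (𝒰 : Ultrafilter ℕ) (ι : S4 k →* E)
    (a : E →* PG k 4) (π : E →* (K →L[ℂ] K)) (lam : Γ →* (K →L[ℂ] K)) (W : Set (K →L[ℂ] K))
    (Ω : K) (m : Set Γ → (K →L[ℂ] K)) (q : Γ → S4 k)
    (U11 : YY k 3 → (C(YY k 3, ℂ) →ₗ[ℂ] (K →L[ℂ] K))) (p11 : ℝ)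
    (U12 : YY k 3 → (C(LL k, ℂ) →ₗ[ℂ] (K →L[ℂ] K))) (p12 : ℝ)
    (U21 : LL k → (C(YY k 3, ℂ) →ₗ[ℂ] (K →L[ℂ] K))) (p21 : ℝ)
    (U22 : LL k → (C(LL k, ℂ) →ₗ[ℂ] (K →L[ℂ] K))) (p22 : ℝ) : Prop where
  base : X.PB μ w 𝒰 ι a π lam W Ω m q
  u11 : UFam 𝒰 (B1 w) (y0 : YY k 3) ι π lam W m q (NA1 q) U11 p11
  u12 : UFam 𝒰 (B1 w) (y0 : YY k 3) ι π lam W m q (NA2 q) U12 p12
  u21 : UFam 𝒰 (B2 w) (l0 : LL k) ι π lam W m q (NA1 q) U21 p21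
  u22 : UFam 𝒰 (B2 w) (l0 : LL k) ι π lam W m q (NA2 q) U22 p22
  s1 : p11 + p12 = 1
  s2 : p21 + p22 = 1
  /-- (I1) for an incident pair, straight types -/
  i11 : ∀ c l, on c l → ∀ f g, Nin on f g → U11 c f * U22 l g = 0
  /-- (I1) for an incident pair, flipped types -/
  i12 : ∀ c l, on c l → ∀ f g, Nin on f g → U21 l f * U12 c g = 0

/-- `SP.LegC` for the picture `RC.PicX` -/
structure LegC [MeasurableSpace k] {Y₁ Y₂ : Type} [TopologicalSpace Y₁] [CompactSpace Y₁]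
    [MulAction (S4 k) Y₁] [ContinuousConstSMul (S4 k) Y₁] [TopologicalSpace Y₂] [CompactSpace Y₂]
    [MulAction (S4 k) Y₂] [ContinuousConstSMul (S4 k) Y₂] (IT : Y₁ → Y₂ → Prop)
    (μ : Measure k) (w : kˣ) (𝒰 : Ultrafilter ℕ) (ι : S4 k →* E)
    (a : E →* PG k 4) (π : E →* (K →L[ℂ] K)) (lam : Γ →* (K →L[ℂ] K)) (W : Set (K →L[ℂ] K))
    (Ω : K) (m : Set Γ → (K →L[ℂ] K)) (q : Γ → S4 k) (NA₁ : ℝ → ℝ → Set Y₁ → Set Γ)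
    (NA₂ : ℝ → ℝ → Set Y₂ → Set Γ) (Ec : YY k 3 → (C(Y₁, ℂ) →⋆ₐ[ℂ] (K →L[ℂ] K)))
    (F : LL k → (C(Y₂, ℂ) →⋆ₐ[ℂ] (K →L[ℂ] K))) : Prop where
  base : X.PB μ w 𝒰 ι a π lam W Ω m q
  e : HFam 𝒰 (B1 w) (y0 : YY k 3) ι π lam W m q NA₁ Ec
  f : HFam 𝒰 (B2 w) (l0 : LL k) ι π lam W m q NA₂ F
  pl : ∀ c l, on c l → H796.PL IT (Ec c) (F l)

/-- `SP.LegComm` for the picture `RC.PicX` -/
structure LegComm [MeasurableSpace k] (μ : Measure k) (w : kˣ) (𝒰 : Ultrafilter ℕ)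
    (ι : S4 k →* E) (a : E →* PG k 4) (π : E →* (K →L[ℂ] K)) (lam : Γ →* (K →L[ℂ] K))
    (W : Set (K →L[ℂ] K)) (Ω : K) (m : Set Γ → (K →L[ℂ] K)) (q : Γ → S4 k)
    (Ec : YY k 3 → (C(YY k 3, ℂ) →⋆ₐ[ℂ] (K →L[ℂ] K)))
    (F : LL k → (C(LL k, ℂ) →⋆ₐ[ℂ] (K →L[ℂ] K))) : Prop where
  leg : X.LegC on μ w 𝒰 ι a π lam W Ω m q (NA1 q) (NA2 q) Ec F
  com : Com Ec F

/-- straight leg -/
abbrev LegS [MeasurableSpace k] (μ : Measure k) (w : kˣ) (𝒰 : Ultrafilter ℕ) (ι : S4 k →* E)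
    (a : E →* PG k 4) (π : E →* (K →L[ℂ] K)) (lam : Γ →* (K →L[ℂ] K)) (W : Set (K →L[ℂ] K))
    (Ω : K) (m : Set Γ → (K →L[ℂ] K)) (q : Γ → S4 k)
    (Ec : YY k 3 → (C(YY k 3, ℂ) →⋆ₐ[ℂ] (K →L[ℂ] K)))
    (F : LL k → (C(LL k, ℂ) →⋆ₐ[ℂ] (K →L[ℂ] K))) : Prop :=
  X.LegC on μ w 𝒰 ι a π lam W Ω m q (NA1 q) (NA2 q) Ec F

/-- flipped leg -/
abbrev LegF [MeasurableSpace k] (μ : Measure k) (w : kˣ) (𝒰 : Ultrafilter ℕ) (ι : S4 k →* E)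
    (a : E →* PG k 4) (π : E →* (K →L[ℂ] K)) (lam : Γ →* (K →L[ℂ] K)) (W : Set (K →L[ℂ] K))
    (Ω : K) (m : Set Γ → (K →L[ℂ] K)) (q : Γ → S4 k)
    (Ec : YY k 3 → (C(LL k, ℂ) →⋆ₐ[ℂ] (K →L[ℂ] K)))
    (F : LL k → (C(YY k 3, ℂ) →⋆ₐ[ℂ] (K →L[ℂ] K))) : Prop :=
  X.LegC (flip on) μ w 𝒰 ι a π lam W Ω m q (NA2 q) (NA1 q) Ec F

/-- the data of one leg: `∃ U p, LegP` -/
def HasLeg [MeasurableSpace k] (μ : Measure k) (w : kˣ) (𝒰 : Ultrafilter ℕ)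
    (ι : S4 k →* E) (a : E →* PG k 4) (π : E →* (K →L[ℂ] K)) (lam : Γ →* (K →L[ℂ] K))
    (W : Set (K →L[ℂ] K)) (Ω : K) (m : Set Γ → (K →L[ℂ] K)) (q : Γ → S4 k) : Prop :=
  ∃ (U11 : YY k 3 → (C(YY k 3, ℂ) →ₗ[ℂ] (K →L[ℂ] K))) (p11 : ℝ)
    (U12 : YY k 3 → (C(LL k, ℂ) →ₗ[ℂ] (K →L[ℂ] K))) (p12 : ℝ)
    (U21 : LL k → (C(YY k 3, ℂ) →ₗ[ℂ] (K →L[ℂ] K))) (p21 : ℝ)
    (U22 : LL k → (C(LL k, ℂ) →ₗ[ℂ] (K →L[ℂ] K))) (p22 : ℝ),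
    X.LegP μ w 𝒰 ι a π lam W Ω m q U11 p11 U12 p12 U21 p21 U22 p22

end pic

/-! ### The joints -/

section stmts

variable (k : Type) [NontriviallyNormedField k] [ProperSpace k]

/-- [P-1] -/
def OneStmt [MeasurableSpace k] (μ : Measure k) : Prop :=
  ∀ {E Γ K : Type} [Group E] [TopologicalSpace E] [Group Γ] [NormedAddCommGroup K]
    [InnerProductSpace ℂ K] [CompleteSpace K] (w : kˣ) (𝒰 : Ultrafilter ℕ) (ι : S4 k →* E)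
    (a : E →* PG k 4) (π : E →* (K →L[ℂ] K)) (lam : Γ →* (K →L[ℂ] K)) (W : Set (K →L[ℂ] K))
    (Ω : K) (m : Set Γ → (K →L[ℂ] K)) (q : Γ → S4 k),
    X.HasLeg μ w 𝒰 ι a π lam W Ω m q →
    ∃ (Ec : YY k 3 → (C(YY k 3, ℂ) →⋆ₐ[ℂ] (K →L[ℂ] K)))
      (F : LL k → (C(LL k, ℂ) →⋆ₐ[ℂ] (K →L[ℂ] K))),
      X.LegComm μ w 𝒰 ι a π lam W Ω m q Ec F

/-- [P-CLS] -/
def ClsStmt [MeasurableSpace k] (μ : Measure k) : Prop :=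
  ∀ {E Γ K : Type} [Group E] [TopologicalSpace E] [Group Γ] [NormedAddCommGroup K]
    [InnerProductSpace ℂ K] [CompleteSpace K] (w : kˣ) (𝒰 : Ultrafilter ℕ) (ι : S4 k →* E)
    (a : E →* PG k 4) (π : E →* (K →L[ℂ] K)) (lam : Γ →* (K →L[ℂ] K)) (W : Set (K →L[ℂ] K))
    (Ω : K) (m : Set Γ → (K →L[ℂ] K)) (q : Γ → S4 k)
    (Ec : YY k 3 → (C(YY k 3, ℂ) →⋆ₐ[ℂ] (K →L[ℂ] K)))
    (F : LL k → (C(LL k, ℂ) →⋆ₐ[ℂ] (K →L[ℂ] K))),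
    X.LegComm μ w 𝒰 ι a π lam W Ω m q Ec F →
    ∃ (σ : k →+* k) (Q : C₀(PG k 4, ℂ) →⋆ₙₐ[ℂ] (K →L[ℂ] K)),
      ClsN (N := 3) a π lam W (fun γ => (q γ).1) Ec σ Q

/-- [P-XC] the two legs commute -/
def XCStmt : Prop :=
  ∀ {E Γ K : Type} [Group E] [TopologicalSpace E] [Group Γ] [Countable Γ]
    [NormedAddCommGroup K] [InnerProductSpace ℂ K] [CompleteSpace K] (ι : S4 k →* E)
    (a : E →* PG k 4) (π : E →* (K →L[ℂ] K)) (lam₁ lam₂ : Γ →* (K →L[ℂ] K))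
    (X : Set (K →L[ℂ] K)) (Ω : K) (q₁ q₂ : Γ → S4 k)
    (E₁ E₂ : YY k 3 → (C(YY k 3, ℂ) →⋆ₐ[ℂ] (K →L[ℂ] K))) (σ₁ σ₂ : k →+* k)
    (Q₁ Q₂ : C₀(PG k 4, ℂ) →⋆ₙₐ[ℂ] (K →L[ℂ] K)),
    Adm ι a → RC.PicX π lam₁ (X ∪ Set.range lam₂) Ω →
    RC.PicX π lam₂ (X ∪ Set.range lam₁) Ω → (∀ x ∈ X, adjoint x ∈ X) →
    (∀ x ∈ X, ∀ g, π g * x * π g⁻¹ ∈ X) → TVE π lam₁ (X ∪ Set.range lam₂) Ω →
    TVE π lam₂ (X ∪ Set.range lam₁) Ω → PH q₁ → PH q₂ →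
    (∀ C : ℝ, {γ : Γ | nm (q₁ γ) ≤ C}.Finite) → (∀ C : ℝ, {γ : Γ | nm (q₂ γ) ≤ C}.Finite) →
    ClsN (N := 3) a π lam₁ (X ∪ Set.range lam₂) (fun γ => (q₁ γ).1) E₁ σ₁ Q₁ →
    ClsN (N := 3) a π lam₂ (X ∪ Set.range lam₁) (fun γ => (q₂ γ).1) E₂ σ₂ Q₂ →
    ∀ ψ φ, Commute (Q₁ ψ) (Q₂ φ)

/-- [P-PUR] -/
def PurStmt [MeasurableSpace k] (μ : Measure k) : Prop :=
  ∀ {E Γ K : Type} [Group E] [TopologicalSpace E] [Group Γ] [NormedAddCommGroup K]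
    [InnerProductSpace ℂ K] [CompleteSpace K] (w : kˣ) (𝒰 : Ultrafilter ℕ) (ι : S4 k →* E)
    (a : E →* PG k 4) (π : E →* (K →L[ℂ] K)) (lam : Γ →* (K →L[ℂ] K)) (W : Set (K →L[ℂ] K))
    (Ω : K) (m : Set Γ → (K →L[ℂ] K)) (q : Γ → S4 k)
    (U11 : YY k 3 → (C(YY k 3, ℂ) →ₗ[ℂ] (K →L[ℂ] K))) (p11 : ℝ)
    (U12 : YY k 3 → (C(LL k, ℂ) →ₗ[ℂ] (K →L[ℂ] K))) (p12 : ℝ)
    (U21 : LL k → (C(YY k 3, ℂ) →ₗ[ℂ] (K →L[ℂ] K))) (p21 : ℝ)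
    (U22 : LL k → (C(LL k, ℂ) →ₗ[ℂ] (K →L[ℂ] K))) (p22 : ℝ),
    X.LegP μ w 𝒰 ι a π lam W Ω m q U11 p11 U12 p12 U21 p21 U22 p22 →
    (p11 = 1 ∧ p22 = 1) ∨ (p12 = 1 ∧ p21 = 1)

/-- [P-0] straight types -/
def ZeroStmt [MeasurableSpace k] (μ : Measure k) : Prop :=
  ∀ {E Γ K : Type} [Group E] [TopologicalSpace E] [Group Γ] [NormedAddCommGroup K]
    [InnerProductSpace ℂ K] [CompleteSpace K] (w : kˣ) (𝒰 : Ultrafilter ℕ) (ι : S4 k →* E)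
    (a : E →* PG k 4) (π : E →* (K →L[ℂ] K)) (lam : Γ →* (K →L[ℂ] K)) (W : Set (K →L[ℂ] K))
    (Ω : K) (m : Set Γ → (K →L[ℂ] K)) (q : Γ → S4 k)
    (U11 : YY k 3 → (C(YY k 3, ℂ) →ₗ[ℂ] (K →L[ℂ] K))) (p11 : ℝ)
    (U12 : YY k 3 → (C(LL k, ℂ) →ₗ[ℂ] (K →L[ℂ] K))) (p12 : ℝ)
    (U21 : LL k → (C(YY k 3, ℂ) →ₗ[ℂ] (K →L[ℂ] K))) (p21 : ℝ)
    (U22 : LL k → (C(LL k, ℂ) →ₗ[ℂ] (K →L[ℂ] K))) (p22 : ℝ),
    X.LegP μ w 𝒰 ι a π lam W Ω m q U11 p11 U12 p12 U21 p21 U22 p22 → p11 = 1 → p22 = 1 →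
    ∃ Ec F, (∀ c f, Ec c f = U11 c f) ∧ (∀ l f, F l f = U22 l f) ∧
      X.LegS μ w 𝒰 ι a π lam W Ω m q Ec F

/-- [P-0] flipped types -/
def ZeroStmt' [MeasurableSpace k] (μ : Measure k) : Prop :=
  ∀ {E Γ K : Type} [Group E] [TopologicalSpace E] [Group Γ] [NormedAddCommGroup K]
    [InnerProductSpace ℂ K] [CompleteSpace K] (w : kˣ) (𝒰 : Ultrafilter ℕ) (ι : S4 k →* E)
    (a : E →* PG k 4) (π : E →* (K →L[ℂ] K)) (lam : Γ →* (K →L[ℂ] K)) (W : Set (K →L[ℂ] K))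
    (Ω : K) (m : Set Γ → (K →L[ℂ] K)) (q : Γ → S4 k)
    (U11 : YY k 3 → (C(YY k 3, ℂ) →ₗ[ℂ] (K →L[ℂ] K))) (p11 : ℝ)
    (U12 : YY k 3 → (C(LL k, ℂ) →ₗ[ℂ] (K →L[ℂ] K))) (p12 : ℝ)
    (U21 : LL k → (C(YY k 3, ℂ) →ₗ[ℂ] (K →L[ℂ] K))) (p21 : ℝ)
    (U22 : LL k → (C(LL k, ℂ) →ₗ[ℂ] (K →L[ℂ] K))) (p22 : ℝ),
    X.LegP μ w 𝒰 ι a π lam W Ω m q U11 p11 U12 p12 U21 p21 U22 p22 → p12 = 1 → p21 = 1 →
    ∃ Ec F, (∀ c f, Ec c f = U12 c f) ∧ (∀ l f, F l f = U21 l f) ∧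
      X.LegF μ w 𝒰 ι a π lam W Ω m q Ec F

/-- [P-K1] -/
def Key1Stmt [MeasurableSpace k] (μ : Measure k) : Prop :=
  ∀ {E Γ K : Type} [Group E] [TopologicalSpace E] [Group Γ] [NormedAddCommGroup K]
    [InnerProductSpace ℂ K] [CompleteSpace K] (w : kˣ) (𝒰 : Ultrafilter ℕ) (ι : S4 k →* E)
    (a : E →* PG k 4) (π : E →* (K →L[ℂ] K)) (lam : Γ →* (K →L[ℂ] K)) (W : Set (K →L[ℂ] K))
    (Ω : K) (m : Set Γ → (K →L[ℂ] K)) (q : Γ → S4 k)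
    (Ec : YY k 3 → (C(YY k 3, ℂ) →⋆ₐ[ℂ] (K →L[ℂ] K)))
    (F : LL k → (C(LL k, ℂ) →⋆ₐ[ℂ] (K →L[ℂ] K))),
    X.LegS μ w 𝒰 ι a π lam W Ω m q Ec F → Key1 on Ec F

/-- [P-K1] flipped types -/
def Key1Stmt' [MeasurableSpace k] (μ : Measure k) : Prop :=
  ∀ {E Γ K : Type} [Group E] [TopologicalSpace E] [Group Γ] [NormedAddCommGroup K]
    [InnerProductSpace ℂ K] [CompleteSpace K] (w : kˣ) (𝒰 : Ultrafilter ℕ) (ι : S4 k →* E)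
    (a : E →* PG k 4) (π : E →* (K →L[ℂ] K)) (lam : Γ →* (K →L[ℂ] K)) (W : Set (K →L[ℂ] K))
    (Ω : K) (m : Set Γ → (K →L[ℂ] K)) (q : Γ → S4 k)
    (Ec : YY k 3 → (C(LL k, ℂ) →⋆ₐ[ℂ] (K →L[ℂ] K)))
    (F : LL k → (C(YY k 3, ℂ) →⋆ₐ[ℂ] (K →L[ℂ] K))),
    X.LegF μ w 𝒰 ι a π lam W Ω m q Ec F → Key1 (flip on) Ec F

/-- [P-K2] -/
def Key2Stmt [MeasurableSpace k] (μ : Measure k) : Prop :=
  ∀ {E Γ K : Type} [Group E] [TopologicalSpace E] [Group Γ] [NormedAddCommGroup K]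
    [InnerProductSpace ℂ K] [CompleteSpace K] (w : kˣ) (𝒰 : Ultrafilter ℕ) (ι : S4 k →* E)
    (a : E →* PG k 4) (π : E →* (K →L[ℂ] K)) (lam : Γ →* (K →L[ℂ] K)) (W : Set (K →L[ℂ] K))
    (Ω : K) (m : Set Γ → (K →L[ℂ] K)) (q : Γ → S4 k)
    (Ec : YY k 3 → (C(YY k 3, ℂ) →⋆ₐ[ℂ] (K →L[ℂ] K)))
    (F : LL k → (C(LL k, ℂ) →⋆ₐ[ℂ] (K →L[ℂ] K))),
    X.LegS μ w 𝒰 ι a π lam W Ω m q Ec F → Key2 on Ec F

/-- [P-K2] flipped types -/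
def Key2Stmt' [MeasurableSpace k] (μ : Measure k) : Prop :=
  ∀ {E Γ K : Type} [Group E] [TopologicalSpace E] [Group Γ] [NormedAddCommGroup K]
    [InnerProductSpace ℂ K] [CompleteSpace K] (w : kˣ) (𝒰 : Ultrafilter ℕ) (ι : S4 k →* E)
    (a : E →* PG k 4) (π : E →* (K →L[ℂ] K)) (lam : Γ →* (K →L[ℂ] K)) (W : Set (K →L[ℂ] K))
    (Ω : K) (m : Set Γ → (K →L[ℂ] K)) (q : Γ → S4 k)
    (Ec : YY k 3 → (C(LL k, ℂ) →⋆ₐ[ℂ] (K →L[ℂ] K)))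
    (F : LL k → (C(YY k 3, ℂ) →⋆ₐ[ℂ] (K →L[ℂ] K))),
    X.LegF μ w 𝒰 ι a π lam W Ω m q Ec F → Key2 (flip on) Ec F

end stmts

/-! ### The one-leg step -/

section main

variable {k : Type} [NontriviallyNormedField k] [ProperSpace k] {E Γ K : Type} [Group E]
  [TopologicalSpace E] [Group Γ] [NormedAddCommGroup K] [InnerProductSpace ℂ K] [CompleteSpace K]
  [MeasurableSpace k] {μ : Measure k} {w : kˣ} {𝒰 : Ultrafilter ℕ} {ι : S4 k →* E}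
  {a : E →* PG k 4} {π : E →* (K →L[ℂ] K)} {lam : Γ →* (K →L[ℂ] K)} {W : Set (K →L[ℂ] K)}
  {Ω : K} {m : Set Γ → (K →L[ℂ] K)} {q : Γ → S4 k}

/-- [P-COM], straight types -/
theorem comS (syn : SynStmt k) {Ec : YY k 3 → (C(YY k 3, ℂ) →⋆ₐ[ℂ] (K →L[ℂ] K))}
    {F : LL k → (C(LL k, ℂ) →⋆ₐ[ℂ] (K →L[ℂ] K))} (h : X.LegS μ w 𝒰 ι a π lam W Ω m q Ec F)
    (k1 : Key1 on Ec F) (k2 : Key2 on Ec F) : Com Ec F := by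
  obtain ⟨h1, h2, h3⟩ := gq_com gq_on gq_on on_closed h.pl h.e.agr h.f.agr
    (fun c l hc => (syn _ _ (h.pl c l hc)).1) (fun c l hc => (syn _ _ (h.pl c l hc)).2) k1 k2
  exact ⟨h1, h2, h3⟩

/-- [P-COM], flipped types -/
theorem comF (syn : SynStmt k) {Ec : YY k 3 → (C(LL k, ℂ) →⋆ₐ[ℂ] (K →L[ℂ] K))}
    {F : LL k → (C(YY k 3, ℂ) →⋆ₐ[ℂ] (K →L[ℂ] K))} (h : X.LegF μ w 𝒰 ι a π lam W Ω m q Ec F)
    (k1 : Key1 (flip on) Ec F) (k2 : Key2 (flip on) Ec F) : Com Ec F := by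
  have hI' : IsClosed {p : LL k × YY k 3 | flip on p.1 p.2} :=
    (on_closed (k := k)).preimage (f := fun q : LL k × YY k 3 => (q.2, q.1)) (by fun_prop)
  obtain ⟨h1, h2, h3⟩ := gq_com gq_on (gq_on (k := k)).dual hI' h.pl h.e.agr h.f.agr
    (fun c l hc => (syn _ _ (pl_flip (h.pl c l hc))).2)
    (fun c l hc => (syn _ _ (pl_flip (h.pl c l hc))).1) k1 k2
  exact ⟨h1, h2, h3⟩

/-- **the first half of Team P** -/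
theorem one_of (hP : X.PurStmt k μ) (h0 : X.ZeroStmt k μ) (h0' : X.ZeroStmt' k μ)
    (h1 : X.Key1Stmt k μ) (h1' : X.Key1Stmt' k μ) (h2 : X.Key2Stmt k μ) (h2' : X.Key2Stmt' k μ)
    (syn : SynStmt k) (hF : FlipStmt k) : X.OneStmt k μ := by
  intro E Γ K _ _ _ _ _ _ w 𝒰 ι a π lam W Ω m q h
  obtain ⟨U11, p11, U12, p12, U21, p21, U22, p22, h⟩ := h
  rcases hP w 𝒰 ι a π lam W Ω m q U11 p11 U12 p12 U21 p21 U22 p22 h with ⟨e1, e2⟩ | ⟨e1, e2⟩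
  · obtain ⟨Ec, F, -, -, hl⟩ := h0 w 𝒰 ι a π lam W Ω m q U11 p11 U12 p12 U21 p21 U22 p22 h e1 e2
    exact ⟨Ec, F, hl, comS syn hl (h1 w 𝒰 ι a π lam W Ω m q Ec F hl)
      (h2 w 𝒰 ι a π lam W Ω m q Ec F hl)⟩
  · obtain ⟨Ec, F, -, -, hl⟩ := h0' w 𝒰 ι a π lam W Ω m q U11 p11 U12 p12 U21 p21 U22 p22 h e1 e2
    have hn : Nontrivial K := ⟨Ω, 0, fun h0 => by
      have := h.base.pic.nΩ
      rw [h0, norm_zero] at this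
      exact zero_ne_one this⟩
    exact (hF Ec F hl.pl hl.e.agr hl.f.agr (comF syn hl (h1' w 𝒰 ι a π lam W Ω m q Ec F hl)
      (h2' w 𝒰 ι a π lam W Ω m q Ec F hl))).elim

end main

end Vale.Agent.P092.SP.X
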