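import Vale.Agent.P092.SPT.X
import Vale.Agent.P092.H416.ClsStmt

/-!
P092, TEAM P, all amplifications (helper421): the classical leg (H416/SpCls, ClsStmt of helper416)
for the picture `RC.PicX`.
-/

set_option linter.all false

namespace Vale.Agent.P092.SP.X

open Vale.Agent.P092.H820 Vale.Agent.P092.H466 Vale.Agent.P092.H171 Vale.Agent.P092.H375.Cls
open Vale.Agent.P092.H416 (fix_unbdd fix_qd preG_sp omB_nd orB_omB sq_on tq_on prp_iff_ln PreG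
  LegG mt_of_inc)
open Vale.Agent.P092.H789 (PG YY)
open Vale.Agent.P092.H35 (sp)
open Vale.Agent.P092.H35.Sig (sgm)
open Vale.Agent.P092.RC (Cm Moore)
open Vale.Agent.P092.SP4
open TopologicalSpace Set MeasureTheory Matrix Module
open scoped LinearAlgebra.Projectivization Matrix InnerProductSpace ZeroAtInfty

section cls

variable {k : Type} [NontriviallyNormedField k] [ProperSpace k] {E Γ K : Type} [Group E]
  [TopologicalSpace E] [Group Γ] [NormedAddCommGroup K] [InnerProductSpace ℂ K] [CompleteSpace K]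
  {ι : S4 k →* E} {a : E →* PG k 4} {π : E →* (K →L[ℂ] K)} {lam : Γ →* (K →L[ℂ] K)}
  {W : Set (K →L[ℂ] K)} {Ω : K} {m : Set Γ → (K →L[ℂ] K)} {q : Γ → S4 k}
  {Ec : YY k 3 → (C(YY k 3, ℂ) →⋆ₐ[ℂ] (K →L[ℂ] K))}
  {F : LL k → (C(LL k, ℂ) →⋆ₐ[ℂ] (K →L[ℂ] K))}

theorem erg_sp (hA : SP.Adm ι a) (hP : RC.PicX π lam W Ω) {i j : Fin 4} (hij : i ≠ j) (s : k)
    (T : K →L[ℂ] K) (h1 : ∀ w ∈ W, T * w = w * T) (h2 : ∀ γ, T * lam γ = lam γ * T)
    (h3 : ∀ g : E, (∀ x, a g • qd hij s x = qd hij s x) → T * π g = π g * T) :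
    ∃ c : ℂ, T = c • (1 : K →L[ℂ] K) := by
  refine hP.erg _ (hA.moore {g : S4 k |
    g.1.1 *ᵥ (Pi.single i 1 : Fin 4 → k) = Pi.single i 1 ∧
      g.1.1 *ᵥ (Pi.single j 1 : Fin 4 → k) = Pi.single j 1} fun C => ?_) T h1 h2 ?_
  · obtain ⟨g, hg, hC⟩ := fix_unbdd (k := k) i j C
    exact ⟨g, hg, hC⟩
  · rintro _ ⟨g, hg, rfl⟩
    refine h3 (ι g) fun x => ?_
    rw [hA.comp]
    exact fix_qd hij s g hg.1 hg.2 x

/-- **[P-CLS]** from the almost everywhere form of the incidence of two points -/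
theorem clsN_of_inc (hA : SP.Adm ι a) (hP : RC.PicX π lam W Ω) (cm : ∀ v f, Cm W (Ec v f))
    (cov : ∀ γ v f, lam γ * Ec v f * lam γ⁻¹ = Ec v (SP.act (q γ) f))
    (pcov : ∀ g v f, π (ι g) * Ec v f * π (ι g)⁻¹ = Ec (g • v) f)
    (com : ∀ c c' f g, Commute (Ec c f) (Ec c' g))
    (inc : ∀ (x y : YY k 3) (Φ : C(Fin 2 → YY k 3, ℂ) →⋆ₐ[ℂ] (K →L[ℂ] K)),
      (∀ i f, Φ (co i f) = Ec (![x, y] i) f) →
      ∀ ξ, ∀ᵐ z ∂(ms Φ ξ), (prp (z 0) (z 1) ↔ prp x y)) :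
    ∃ (σ : k →+* k) (Q : C₀(PG k 4, ℂ) →⋆ₙₐ[ℂ] (K →L[ℂ] K)),
      SN.ClsN (N := 3) a π lam W (fun γ => (q γ).1) Ec σ Q := by
  haveI : Nontrivial K := ⟨Ω, 0, fun h => by
    have := hP.nΩ
    rw [h, norm_zero] at this
    exact zero_ne_one this⟩
  have hpre := preG_sp hA cm cov pcov com
  have hL : LegG a π lam W (fun γ => (q γ).1) Ec :=
    { toPreG := hpre
      erg := fun hij s T h1 h2 h3 => erg_sp hA hP hij s T h1 h2 h3
      mt := fun b Φ hΦ ξ => mt_of_inc omB_nd hpre.com (fun x y Ψ hΨ ζ => by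
        filter_upwards [inc x y Ψ hΨ ζ] with z hz
        rw [orB_omB, orB_omB]
        exact hz) b Φ hΦ ξ }
  obtain ⟨σ, Q, hQ⟩ := LegG.clG (m := 3) hL (by norm_num)
  exact ⟨σ, Q, hQ.clsN⟩

end cls

/-- **[P-CLS]** -/
theorem clsStmt {k : Type} [NontriviallyNormedField k] [ProperSpace k] [MeasurableSpace k]
    (μ : Measure k) : ClsStmt k μ := by
  intro E Γ K _ _ _ _ _ _ w 𝒰 ι a π lam W Ω m q Ec F h
  have hF : H831.Fam (on : YY k 3 → LL k → Prop) (on : YY k 3 → LL k → Prop) Ec F :=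
    { flg := fun p l hpl => ⟨(h.leg.pl p l hpl).com, (h.leg.pl p l hpl).inc⟩
      col := fun p p' l hne h1 h2 => ⟨h.com.ee p p', h.leg.e.agr p p' hne⟩
      cop := fun l l' p hne h1 h2 => ⟨h.com.ff l l', h.leg.f.agr l l' hne⟩ }
  refine clsN_of_inc h.leg.base.adm h.leg.base.pic h.leg.e.cm h.leg.e.cov h.leg.e.pcov h.com.ee
    fun x y Φ hΦ ξ => ?_
  filter_upwards [H483.Inc.ae_two sq_on tq_on hF x y Φ hΦ ξ] with z hz
  rw [prp_iff_ln, prp_iff_ln]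
  exact hz

end Vale.Agent.P092.SP.X
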