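import Vale.Agent.P092.SPT.JPu
import Vale.Agent.P092.SPT.JZero
import Vale.Agent.P092.H99.PT.Key
import Vale.Agent.P092.H336.PullS4

/-!
P092, TEAM P, all amplifications (helper421): the first half from the two counts, for the picture
`RC.PicX`.
-/

set_option linter.all false

open scoped InnerProductSpace ENNReal LinearAlgebra.Projectivization
open Filter Topology ContinuousLinearMap MeasureTheory TopologicalSpace

namespace Vale.Agent.P092.SP.X

open Vale.Agent.P092.SP
open Vale.Agent.P092.SP4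

/-- the first half over an ultrametric field, from the two counts -/
theorem one_ultra {k : Type} [NontriviallyNormedField k] [ProperSpace k] [MeasurableSpace k]
    [BorelSpace k] (μ : Measure k) [IsFiniteMeasureOnCompacts μ] [μ.IsOpenPosMeasure]
    [IsUltrametricDist k] (h2 : (2 : k) ≠ 0) (c1 : H99.P.Count1Stmt k)
    (c2 : H99.P.Count2Stmt k) : X.OneStmt k μ :=
  X.one_of (X.purStmt μ) (X.zeroStmt_td μ) (X.zeroStmt_td' μ) (H99.PT.key1Stmt c1)
    (H99.PT.key1Stmt' c2) (H99.PT.key2Stmt c2) (H99.PT.key2Stmt' c1) synStmt_td (flipStmt h2)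

/-- the synthesis row over `ℝ` (helper336) -/
theorem syn_R : SynStmt ℝ := by
  intro K _ _ _ b l h
  have hτ : ∀ x : ℝ, ‖(algebraMap ℝ ℂ) x‖ = ‖x‖ := fun x => by simp
  exact ⟨H336.synS4_cc hτ b l h.com h.inc, H336.synS4_col hτ b l h.com h.inc⟩

/-- the first half over `ℝ`, from the two counts -/
theorem one_real [MeasurableSpace ℝ] [BorelSpace ℝ] (μ : Measure ℝ) [IsFiniteMeasureOnCompacts μ] [μ.IsOpenPosMeasure]
    (c1 : H99.P.Count1Stmt ℝ) (c2 : H99.P.Count2Stmt ℝ) : X.OneStmt ℝ μ :=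
  X.one_of (X.purStmt μ) (X.zeroStmt_R μ) (X.zeroStmt_R' μ) (H99.PT.key1Stmt c1)
    (H99.PT.key1Stmt' c2) (H99.PT.key2Stmt c2) (H99.PT.key2Stmt' c1) syn_R (flipStmt two_ne_zero)

end Vale.Agent.P092.SP.X
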