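import Vale.Agent.P092.SPT.Main
import Vale.Agent.P092.SPT.One
import Vale.Agent.P092.SPT.JCls
import Vale.Agent.P092.H325.SpXt
import Vale.Agent.P092.H261.C1h
import Vale.Agent.P092.H464.P.C2
import Vale.Agent.P092.H21.P.ExT
import Vale.Agent.P092.SP.Fin

/-!
P092, TEAM P, all amplifications (helper421): the core statement `CoreAllE` for all admissible
source groups over `Sp_4(k)`, `k = ℝ` or `k` ultrametric with `2 ≠ 0`.
-/

set_option linter.all false

open scoped InnerProductSpace ENNReal LinearAlgebra.Projectivization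
open Filter Topology ContinuousLinearMap MeasureTheory TopologicalSpace Matrix

namespace Vale.Agent.P092.SP.X

open Vale.Agent.P092.SP
open Vale.Agent.P092.SP4
open Vale.Agent.P092.RC (PG YY GG y0)
open Vale.Agent.P092.SNT (CoreAllE)
open Vale.Agent.P092.H684.Psp (PSp4)

/-- the first half, for all Haar measures -/
def OneX (k : Type) [NontriviallyNormedField k] [ProperSpace k] : Prop :=
  ∀ [MeasurableSpace k] [BorelSpace k] (μ : Measure k) [μ.IsAddHaarMeasure], X.OneStmt k μ

/-- the first half over `ℝ` -/
theorem oneX_real : OneX ℝ := by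
  intro _ _ μ _
  exact one_real μ (H261.C1.count1 (.real (RingEquiv.refl ℝ) fun _ => rfl))
    (H464.PC.count2Stmt (.real (RingEquiv.refl ℝ) fun _ => rfl))

/-- the first half over an ultrametric field -/
theorem oneX_ultra {k : Type} [NontriviallyNormedField k] [ProperSpace k]
    (hu : IsUltrametricDist k) (h2 : (2 : k) ≠ 0) : OneX k := by
  intro _ _ μ _
  exact one_ultra μ h2 (H261.C1.count1 (.ultra hu)) (H464.PC.count2Stmt (.ultra hu))

/-- **`CoreAllE` for every admissible source group.** -/
theorem coreAllE_adm {k : Type} [NontriviallyNormedField k] [ProperSpace k]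
    (hk : H933.LocK k) (h2 : (2 : k) ≠ 0) (hOne : OneX k) {E : Type} [Group E]
    [TopologicalSpace E] [IsTopologicalGroup E] [LocallyCompactSpace E]
    [SecondCountableTopology E] [T2Space E] {ι : S4 k →* E} {a : E →* PG k 4} (h : Adm ι a) :
    CoreAllE E := by
  letI : MeasurableSpace k := borel k
  haveI : BorelSpace k := ⟨rfl⟩
  haveI := nc_E h
  exact coreAllE_of (μ := (Measure.addHaar : Measure k)) (hOne _) (X.clsStmt _)
    (H325.xcStmtPX k) (H21.P.exStmtT_of hk h (gapStmt h2))

/-- **The core statement of `PSp_4(ℝ)`, all amplifications.** -/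
theorem coreAllE_pspR : CoreAllE (PSp4 ℝ) :=
  coreAllE_adm (.real (RingEquiv.refl ℝ) fun _ => rfl) two_ne_zero oneX_real
    (H714.AdmS4.adm_quo _ (H684.Psp.scc ℝ))

/-- **The core statement of `PSp_4(k)`, `k` ultrametric with `2 ≠ 0`, all amplifications.** -/
theorem coreAllE_pspU {k : Type} [NontriviallyNormedField k] [ProperSpace k]
    (hu : IsUltrametricDist k) (h2 : (2 : k) ≠ 0) : CoreAllE (PSp4 k) :=
  coreAllE_adm (.ultra hu) h2 (oneX_ultra hu h2) (H714.AdmS4.adm_quo _ (H684.Psp.scc k))

end Vale.Agent.P092.SP.X
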