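import Vale.Agent.P092.SPT.Fin
import Vale.Agent.P092.UN.NfC
import Vale.Agent.P092.H684.Psp9

/-!
P092, TEAM P, all amplifications (helper421): the class `UN.LatticeC` (ICC lattices of
`Sp_4(k)/Z`, `k = ℝ` or `k` ultrametric of characteristic not two) and the class `SpLattice₂` of
helper684.
-/

set_option linter.all false

open Matrix Filter Topology

namespace Vale.Agent.P092.SP.X

open Vale.Agent.P092.H684.Psp (PSp4 NC NC.pq lat_pq lat_of_latC)
open Vale.Agent.P092.SNT (CoreAllE superAll_of_coreAllE)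

/-- lattices of `Sp_4(k)/Z`, all amplifications -/
theorem superAll_quo4 {k : Type} [NontriviallyNormedField k] [ProperSpace k]
    (h : CoreAllE (PSp4 k)) {E : Type} [Group E] [TopologicalSpace E]
    (hE : UN.Quo (symplecticGroup (Fin 2) k) E) {Γ : Type} [Group Γ] (hicc : UN.ICC Γ)
    (i : Γ →* E) (hi : Function.Injective i) (hl : UN.IsLattice i.range) : UN.SuperAll Γ := by
  obtain ⟨i', hi', hl'⟩ := lat_pq (UN.nc_quo4 (UN.quo_S4 hE)).pq hicc i hi
    ((UN.isLattice_iff _).1 hl)
  exact UN.superAll_of (superAll_of_coreAllE h hicc i' hi' hl')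

/-- **The class `LatticeC`, all amplifications.** -/
theorem superAll_latticeC : ∀ (Γ : Type) [Group Γ], UN.LatticeC Γ → UN.SuperAll Γ := by
  rintro Γ _ ⟨hicc, E, _, _, i, ht | ⟨k, _, _, hu, h2, ht⟩, hi, hl⟩
  · exact superAll_quo4 coreAllE_pspR ht hicc i hi hl
  · exact superAll_quo4 (coreAllE_pspU hu h2) ht hicc i hi hl

/-- **The class of helper684, all amplifications.** -/
theorem final2All : H684.Psp.St.Final2All := by
  rintro Γ _ ⟨hicc, h | ⟨k, _, _, hu, h2, h⟩⟩
  · obtain ⟨i, hi, hl⟩ := lat_of_latC hicc h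
    exact superAll_of_coreAllE coreAllE_pspR hicc i hi hl
  · obtain ⟨i, hi, hl⟩ := lat_of_latC hicc h
    exact superAll_of_coreAllE (coreAllE_pspU hu h2) hicc i hi hl

end Vale.Agent.P092.SP.X
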