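import Vale.Agent.P092.SPT.X
import Vale.Agent.P092.SPT.JPm
import Vale.Agent.P092.H306.Pu4
import Vale.Agent.P092.H43.PPrx
import Vale.Agent.P092.H315P.OppD

/-!
P092, TEAM P, all amplifications (helper421): purity and the permutation of the types
(H306/Pu3, Pu4 of helper306) for the picture `RC.PicX`.
-/

set_option linter.all false

open scoped InnerProductSpace ENNReal LinearAlgebra.Projectivization Matrix
open Filter Topology ContinuousLinearMap MeasureTheory TopologicalSpace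

namespace Vale.Agent.P092.SP.X

open Vale.Agent.P092.SD (Ms UC)
open Vale.Agent.P092.RC (Cm TRN Moore GG PG YY y0)
open Vale.Agent.P092.H790.CTA (ORBG SIZEG)
open Vale.Agent.P092.H790.CT (PicL)
open Vale.Agent.P092.SP4 (S4 LL on)
open Vale.Agent.P092.SP (UFam NA1 NA2 nm UD PH Sh' act opp1 opp2 UL)
open Vale.Agent.P092.H43.PPur (Fam Prx)
open Vale.Agent.P092.H306.Pu (CapStmt exists_shell nm_dist nm_pos continuous_Sh' Sh'_zero fix_pair
  ropp)

section main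

variable {k : Type} [NontriviallyNormedField k] [ProperSpace k] [MeasurableSpace k] [BorelSpace k]
  {μ : Measure k} [IsFiniteMeasureOnCompacts μ] [μ.IsOpenPosMeasure] {w : kˣ} {𝒰 : Ultrafilter ℕ}
  {E Γ K : Type} [Group E] [TopologicalSpace E] [Group Γ] [NormedAddCommGroup K]
  [InnerProductSpace ℂ K] [CompleteSpace K] {ι : S4 k →* E} {a : E →* PG k 4}
  {π : E →* (K →L[ℂ] K)} {lam : Γ →* (K →L[ℂ] K)} {W : Set (K →L[ℂ] K)} {Ω : K}
  {m : Set Γ → (K →L[ℂ] K)} {q : Γ → S4 k}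

/-- the picture without traces of a `PicX` -/
theorem picL_of (h : RC.PicX π lam W Ω) : PicL π lam W Ω :=
  ⟨h.adjP, h.adjL, h.comm, h.Wadj, h.WP, h.WL, h.tr_adj⟩

section opp

variable {Y : Type} [TopologicalSpace Y] [CompactSpace Y] [T2Space Y] [MulAction (S4 k) Y]
  [ContinuousConstSMul (S4 k) Y]

/-- **(R) for opposite sets**: a source point and a source line, the same target type. -/
theorem ropp_fam (hb : PB μ w 𝒰 ι a π lam W Ω m q) {NA : ℝ → ℝ → Set Y → Set Γ}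
    {U : YY k 3 → (C(Y, ℂ) →ₗ[ℂ] (K →L[ℂ] K))} {p : ℝ}
    {F : LL k → (C(Y, ℂ) →ₗ[ℂ] (K →L[ℂ] K))} {p' : ℝ}
    (hU : UFam 𝒰 (SP.B1 w) (y0 : YY k 3) ι π lam W m q NA U p)
    (hF : UFam 𝒰 (SP.B2 w) SP.l0 ι π lam W m q NA F p') {O : Y → Y → Prop}
    (hO : IsOpen {p : Y × Y | O p.1 p.2}) (hcap : CapStmt q NA O) (c : YY k 3) (l : LL k)
    (u h : C(Y, ℂ)) (huh : ∀ x ∈ tsupport u, ∀ y ∈ tsupport h, O x y) :
    U c u * F l h = 0 := by
  haveI := hb.adm.tg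
  obtain ⟨g, hg, hg1, hg2⟩ := fix_pair c l
  obtain ⟨A, hA, huA, hAO⟩ := exists_shell hO (isClosed_tsupport u) (isClosed_tsupport h) huh
  obtain ⟨ρ, hρ, hρ1, hORB⟩ := hb.orb1
  have hfix : ∀ e : S4 k, e • l = l → Commute (F l h) (π (ι e)) := by
    intro e he
    have h1 := hF.pcov e l h
    rw [he] at h1
    have h2 : π (ι e)⁻¹ * π (ι e) = 1 := by rw [← map_mul, inv_mul_cancel, map_one]
    change F l h * π (ι e) = π (ι e) * F l h
    calc F l h * π (ι e) = (π (ι e) * F l h * π (ι e)⁻¹) * π (ι e) := by rw [h1]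
      _ = π (ι e) * F l h * (π (ι e)⁻¹ * π (ι e)) := by simp only [mul_assoc]
      _ = π (ι e) * F l h := by rw [h2, mul_one]
  have hcov : ∀ γ (f f' : C(Y, ℂ)), (∀ y, f' (q γ • y) = f y) →
      lam γ * F l f * lam γ⁻¹ = F l f' := by
    intro γ f f' hff
    rw [hF.cov]
    congr 1
    ext y
    change f ((q γ)⁻¹ • y) = f' y
    rw [← hff, smul_inv_smul]
  have key : U (g • (y0 : YY k 3)) u * F l h = 0 := by
    refine ropp (μ := μ) (V := k) (b := ι (SP.B1 w)) (n := fun s => ι (Sh' s)) (g := ι g)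
      (sz := fun γ => nm (q γ)) (q := q) (𝒰 := (𝒰 : Filter ℕ)) (NA := fun R T => NA R T A)
      (c := ‖u‖) (d := 1)
      (picL_of hb.pic) hb.ms hb.uc hρ hρ1 ?_ hORB (fun γ => nm_pos _) (nm_dist hb.ph) hb.size1
      hb.h𝒰 (hF.ul l) (hF.cm l h) hcov ?_ ?_ ?_ ?_
    · have h1 : Continuous fun s : k => ι (Sh' s) := hb.adm.cι.comp continuous_Sh'
      have h2 := h1.tendsto 0
      rwa [Sh'_zero, map_one] at h2
    · rw [← map_mul, ← map_inv, ← map_mul]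
      exact hfix _ (hg1 w)
    · intro s
      rw [← map_mul, ← map_inv, ← map_mul]
      exact hfix _ (hg2 s)
    · intro ζ ε hε
      obtain ⟨R, hR⟩ := hU.dom g u A hA huA ζ ε hε
      refine ⟨R, fun T hT => (hR T hT).mono fun t ht => ?_⟩
      rw [← map_pow, ← map_mul, ← map_inv, ← map_mul]
      exact ht
    · intro R
      obtain ⟨T, hT, C, hC⟩ := hcap A (tsupport h) hA (isClosed_tsupport h) hAO R
      refine ⟨T, hT, C, fun J hJ S hS y hy => ?_⟩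
      rw [pow_one]
      exact hC J hJ S hS y hy
  rw [hg] at key
  exact key

end opp

section fam

variable {X Y : Type} [MulAction (S4 k) X] [TopologicalSpace Y] [CompactSpace Y] [T2Space Y]
  [MulAction (S4 k) Y] [ContinuousConstSMul (S4 k) Y]

theorem fam_of_ufam (hb : PB μ w 𝒰 ι a π lam W Ω m q) {b : S4 k} {v0 : X}
    {NA : ℝ → ℝ → Set Y → Set Γ} {U : X → (C(Y, ℂ) →ₗ[ℂ] (K →L[ℂ] K))} {p : ℝ}
    (h : UFam 𝒰 b v0 ι π lam W m q NA U p) : Fam π lam W q p U where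
  ul := h.ul
  cm := h.cm
  cov γ z f f' hff := by
    rw [h.cov]
    congr 1
    ext y
    change f ((q γ)⁻¹ • y) = f' y
    rw [← hff, smul_inv_smul]
  pst e z := by
    obtain ⟨g, rfl⟩ := hb.adm.sur e
    exact ⟨g • z, fun f => h.pcov g z f⟩

/-- a target type occurs at one of the two source types only -/
theorem excl_type (hb : PB μ w 𝒰 ι a π lam W Ω m q) {NA : ℝ → ℝ → Set Y → Set Γ}
    {U : YY k 3 → (C(Y, ℂ) →ₗ[ℂ] (K →L[ℂ] K))} {p : ℝ}
    {F : LL k → (C(Y, ℂ) →ₗ[ℂ] (K →L[ℂ] K))} {p' : ℝ}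
    (hU : UFam 𝒰 (SP.B1 w) (y0 : YY k 3) ι π lam W m q NA U p)
    (hF : UFam 𝒰 (SP.B2 w) SP.l0 ι π lam W m q NA F p') {O : Y → Y → Prop}
    (hO : IsOpen {p : Y × Y | O p.1 p.2}) (hcap : CapStmt q NA O)
    {Y' : Type} {Op : Y' → Set Y} (hx : Prx q Op) {x y : Y} (hxy : O x y) : p = 0 ∨ p' = 0 := by
  obtain ⟨U₁, U₂, h1, h2, hx1, hy2, h3⟩ := isOpen_prod_iff.1 hO x y hxy
  haveI : Nonempty (YY k 3) := ⟨y0⟩
  haveI : Nonempty (LL k) := ⟨SP.l0⟩
  obtain ⟨Ω', hI⟩ := toI hb.pic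
  refine excl (U := U₁) (U' := U₂) hI (fam_of_ufam hb hU) (fam_of_ufam hb hF) hx h1 ⟨x, hx1⟩ h2 ⟨y, hy2⟩ ?_
  intro c l f g hf hg
  exact ropp_fam hb hU hF hO hcap c l f g fun s hs t ht =>
    h3 (Set.mk_mem_prod (hf hs) (hg ht))

end fam

/-- **Purity and permutation** ([P-PUR]) from the capacities and the cells. -/
theorem pur_of {U11 : YY k 3 → (C(YY k 3, ℂ) →ₗ[ℂ] (K →L[ℂ] K))} {p11 : ℝ}
    {U12 : YY k 3 → (C(LL k, ℂ) →ₗ[ℂ] (K →L[ℂ] K))} {p12 : ℝ}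
    {U21 : LL k → (C(YY k 3, ℂ) →ₗ[ℂ] (K →L[ℂ] K))} {p21 : ℝ}
    {U22 : LL k → (C(LL k, ℂ) →ₗ[ℂ] (K →L[ℂ] K))} {p22 : ℝ}
    (h : LegP μ w 𝒰 ι a π lam W Ω m q U11 p11 U12 p12 U21 p21 U22 p22)
    (cap1 : CapStmt q (NA1 q) opp1) (cap2 : CapStmt q (NA2 q) opp2)
    (ho1 : IsOpen {p : YY k 3 × YY k 3 | opp1 p.1 p.2})
    (ho2 : IsOpen {p : LL k × LL k | opp2 p.1 p.2})
    (hx1 : Prx q (fun z : YY k 3 => {y | opp1 y z})) (hx2 : Prx q (fun z : LL k => {y | opp2 y z})) :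
    (p11 = 1 ∧ p22 = 1) ∨ (p12 = 1 ∧ p21 = 1) := by
  obtain ⟨z1, hz1⟩ := hx1.all y0
  obtain ⟨z2, hz2⟩ := hx2.all SP.l0
  have e1 : p11 = 0 ∨ p21 = 0 := excl_type h.base h.u11 h.u21 ho1 cap1 hx1 hz1
  have e2 : p12 = 0 ∨ p22 = 0 := excl_type h.base h.u12 h.u22 ho2 cap2 hx2 hz2
  have s1 := h.s1
  have s2 := h.s2
  rcases e1 with e | e
  · right
    have h12 : p12 = 1 := by rw [e, zero_add] at s1; exact s1
    have h22 : p22 = 0 := by
      rcases e2 with e' | e'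
      · rw [e'] at h12
        exact absurd h12 zero_ne_one
      · exact e'
    refine ⟨h12, ?_⟩
    rw [h22, add_zero] at s2
    exact s2
  · left
    have h22 : p22 = 1 := by rw [e, zero_add] at s2; exact s2
    have h12 : p12 = 0 := by
      rcases e2 with e' | e'
      · exact e'
      · rw [e'] at h22
        exact absurd h22 zero_ne_one
    refine ⟨?_, h22⟩
    rw [h12, add_zero] at s1
    exact s1

end main

/-- **[P-PUR]** for the picture `RC.PicX` -/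
theorem purStmt {k : Type} [NontriviallyNormedField k] [ProperSpace k] [MeasurableSpace k]
    [BorelSpace k] (μ : Measure k) [IsFiniteMeasureOnCompacts μ] [μ.IsOpenPosMeasure] :
    PurStmt k μ := by
  intro E Γ K _ _ _ _ _ _ w 𝒰 ι a π lam W Ω m q U11 p11 U12 p12 U21 p21 U22 p22 h
  exact pur_of h (H315P.Opp.capStmt1 h.base.ud) (H315P.Opp.capStmt2 h.base.ud)
    H43.PPrx.opp1_open H43.PPrx.opp2_open (H43.PPrx.prx1_of h.base.prox1)
    (H43.PPrx.prx2_of h.base.prox2)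

end Vale.Agent.P092.SP.X
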