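import Vale.Agent.P092.SPT.Amp
import Vale.Agent.P092.SNT.Main
import Vale.Agent.P092.SP.Main

/-!
P092, TEAM P, all amplifications (helper421): the assembly. `CoreAllE E` from the joints `SP.X` and
the concrete legs of the honest family; the final statements.
-/

set_option linter.all false

open scoped InnerProductSpace ENNReal LinearAlgebra.Projectivization ZeroAtInfty
open Filter Topology ContinuousLinearMap MeasureTheory TopologicalSpace Matrix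

namespace Vale.Agent.P092.SP.X

open Vale.Agent.P092.SP
open Vale.Agent.P092.SP4
open Vale.Agent.P092.SN (ClsN TVE cleg_of)
open Vale.Agent.P092.RC (Cm TRN Moore GG PG YY y0 ampH ampH_ap ampW ampO ampW_union range_ampH
  amp_comm_iff adjV3)
open Vale.Agent.P092.H35 (sp)
open Vale.Agent.P092.H333.Amp
open Vale.Agent.P092.H85 (cdat)
open Vale.Agent.P092.H515.St (IsLattice LocK)
open Vale.Agent.P092.SNT (TVEF tvE_amp tv_tri cleg_unamp CoreAllE superAll_of_coreAllE)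

/-! ### The abstract part: both legs -/

section abs

variable {k : Type} [NontriviallyNormedField k] [ProperSpace k] {E Γ K : Type} [Group E]
  [TopologicalSpace E] [Group Γ] [NormedAddCommGroup K] [InnerProductSpace ℂ K] [CompleteSpace K]
  {ι : S4 k →* E} {a : E →* PG k 4} {π : E →* (K →L[ℂ] K)}
  {lam₁ lam₂ : Γ →* (K →L[ℂ] K)} {X : Set (K →L[ℂ] K)}

theorem HasLegF.base [MeasurableSpace k] {μ : Measure k} {κ : Type} [Fintype κ] {w : kˣ}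
    {𝒰 : Ultrafilter ℕ} {lam : Γ →* (K →L[ℂ] K)} {W : Set (K →L[ℂ] K)} {Ω : κ → K}
    {m : Set Γ → (K →L[ℂ] K)} {q : Γ → S4 k} (h : HasLegF μ w 𝒰 ι a π lam W Ω m q) :
    PBF μ w 𝒰 ι a π lam W Ω m q := by
  obtain ⟨U11, p11, U12, p12, U21, p21, U22, p22, h⟩ := h
  exact h.base

/-- **Two legs of families give two commuting classical legs.** -/
theorem clegs_of [Countable Γ] [MeasurableSpace k] [OpensMeasurableSpace k] {μ : Measure k}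
    (hOne : SP.X.OneStmt k μ) (hCls : SP.X.ClsStmt k μ) (hXC : SP.X.XCStmt k)
    {κ κ₁ κ₂ : Type} [Fintype κ] [Fintype κ₁] [Fintype κ₂] {Ω : κ → K} {Ω₁ : κ₁ → K} {Ω₂ : κ₂ → K}
    (hp : RC.Pic2F π lam₁ lam₂ X Ω) (tv : TVEF π lam₁ (X ∪ Set.range lam₂) Ω)
    {w₁ w₂ : kˣ} {𝒰₁ 𝒰₂ : Ultrafilter ℕ} {m₁ m₂ : Set Γ → (K →L[ℂ] K)} {q₁ q₂ : Γ → S4 k}
    (l1 : HasLegF μ w₁ 𝒰₁ ι a π lam₁ (X ∪ Set.range lam₂) Ω₁ m₁ q₁)
    (l2 : HasLegF μ w₂ 𝒰₂ ι a π lam₂ (X ∪ Set.range lam₁) Ω₂ m₂ q₂)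
    (i1 : ∀ γ, sp k 4 (q₁ γ).1 = 1 → γ = 1) (i2 : ∀ γ, sp k 4 (q₂ γ).1 = 1 → γ = 1) :
    ∃ Q₁ Q₂ : C₀(PG k 4, ℂ) →⋆ₙₐ[ℂ] (K →L[ℂ] K),
      H264.Cl.CLeg π lam₁ (X ∪ Set.range lam₂)
        (SN.qP (fun γ => (q₁ γ).1) l1.base.ph) Q₁ ∧
      H264.Cl.CLeg π lam₂ (X ∪ Set.range lam₁)
        (SN.qP (fun γ => (q₂ γ).1) l2.base.ph) Q₂ ∧
      ∀ ψ φ, Commute (Q₁ ψ) (Q₂ φ) := by
  obtain ⟨n₁, g₁⟩ := exists_leg_amp l1
  obtain ⟨n₂, g₂⟩ := exists_leg_amp l2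
  obtain ⟨n₃, g₃⟩ := hp.leg₁.exists_amp
  obtain ⟨n₄, g₄⟩ := hp.leg₂.exists_amp
  obtain ⟨Q, _, _, ⟨jj⟩, hN⟩ := RC.exists_grp (κ ⊕ κ₁ ⊕ κ₂) (n₁ + n₂ + n₃ + n₄)
  obtain ⟨j, -⟩ : ∃ j : κ ↪ Q, True := ⟨Function.Embedding.inl.trans jj, trivial⟩
  obtain ⟨j₁, -⟩ : ∃ j : κ₁ ↪ Q, True :=
    ⟨(Function.Embedding.inl.trans Function.Embedding.inr).trans jj, trivial⟩
  obtain ⟨j₂, -⟩ : ∃ j : κ₂ ↪ Q, True :=
    ⟨(Function.Embedding.inr.trans Function.Embedding.inr).trans jj, trivial⟩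
  have L1 := g₁ Q (by omega) j₁
  have L2 := g₂ Q (by omega) j₂
  have P1 := g₃ Q (by omega) j
  have P2 := g₄ Q (by omega) j
  have T1 : TVE (ampH Q π) (ampH Q lam₁) (ampW Q (X ∪ Set.range lam₂)) (ampO j Ω) := tvE_amp tv j
  have hM : ∀ Y ∈ SD.MM lam₂ (X ∪ Set.range lam₁), Y ∈ SD.MM lam₁ (X ∪ Set.range lam₂) := by
    rintro Y ⟨h1, h2⟩
    refine ⟨?_, fun γ => h1 _ (Or.inr ⟨γ, rfl⟩)⟩
    rintro w (hw | ⟨γ, rfl⟩)
    · exact h1 _ (Or.inl hw)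
    · exact h2 γ
  have tv2 : TVEF π lam₂ (X ∪ Set.range lam₁) Ω := fun Y hY h => tv Y (hM Y hY) h
  have T2 : TVE (ampH Q π) (ampH Q lam₂) (ampW Q (X ∪ Set.range lam₁)) (ampO j Ω) := tvE_amp tv2 j
  obtain ⟨E₁, F₁, c1⟩ := hOne w₁ 𝒰₁ ι a _ _ _ _ _ q₁ L1
  obtain ⟨E₂, F₂, c2⟩ := hOne w₂ 𝒰₂ ι a _ _ _ _ _ q₂ L2
  obtain ⟨σ₁, P, hP⟩ := hCls w₁ 𝒰₁ ι a _ _ _ _ _ q₁ E₁ F₁ c1
  obtain ⟨σ₂, R, hR⟩ := hCls w₂ 𝒰₂ ι a _ _ _ _ _ q₂ E₂ F₂ c2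
  have C1 := cleg_of hP l1.base.ph i1 l1.base.fin
  have C2 := cleg_of hR l2.base.ph i2 l2.base.fin
  have hc : ∀ ψ φ, Commute (P ψ) (R φ) := by
    rw [ampW_union, ← range_ampH] at P1 P2 T1 T2 hP hR
    refine hXC ι a (ampH Q π) (ampH Q lam₁) (ampH Q lam₂) (ampW Q X) (ampO j Ω) q₁ q₂ _ _ σ₁ σ₂
      P R l1.base.adm P1 P2 ?_ ?_ T1 T2 l1.base.ph l2.base.ph l1.base.fin l2.base.fin hP hR
    · rintro _ (⟨w, hw, rfl⟩ | ⟨f, rfl⟩)
      · rw [adjoint_amp]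
        exact Or.inl ⟨_, hp.Xadj w hw, rfl⟩
      · rw [adjoint_sg]
        exact Or.inr ⟨_, rfl⟩
    · rintro _ (⟨w, hw, rfl⟩ | ⟨f, rfl⟩) g
      · rw [ampH_ap, ampH_ap, ← amp_mul, ← amp_mul]
        exact Or.inl ⟨_, hp.XP w hw g, rfl⟩
      · have h1 : π g * π g⁻¹ = 1 := by rw [← map_mul, mul_inv_cancel, map_one]
        rw [ampH_ap, ampH_ap, amp_sg, mul_assoc, ← amp_mul, h1, amp_one, mul_one]
        exact Or.inr ⟨_, rfl⟩
  obtain ⟨P', e1, h1⟩ := cleg_unamp C1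
  obtain ⟨R', e2, h2⟩ := cleg_unamp C2
  refine ⟨P', R', h1, h2, fun ψ φ => ?_⟩
  have h3 := hc ψ φ
  rw [e1, e2] at h3
  exact amp_comm_iff.1 h3

end abs

/-! ### The concrete picture -/

section conc

open Vale.Agent.P092.SR Vale.Agent.P092.H160 Vale.Agent.P092.H103 Vale.Agent.P092.H962

/-- **[P-EX-T]** the concrete picture over a source group `E`, all amplifications: both legs. The
families `Ω₁`, `Ω₂` are free. -/
def ExStmtT (k : Type) [NontriviallyNormedField k] [ProperSpace k] [MeasurableSpace k]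
    (μ : Measure k) {E : Type} [Group E] [TopologicalSpace E]
    [IsTopologicalGroup E] [LocallyCompactSpace E] [SecondCountableTopology E] [T2Space E]
    (ι : S4 k →* E) (a : E →* PG k 4) : Prop :=
  ∀ [MeasurableSpace E] [BorelSpace E] {Γ : Subgroup E} [DiscreteTopology Γ] [Countable Γ]
    [MeasurableSpace (E ⧸ Γ)] [BorelSpace (E ⧸ Γ)] {ν : Measure (E ⧸ Γ)}
    [IsProbabilityMeasure ν] (hν : ∀ g : E, ν.map (fun x => g • x) = ν)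
    (_ : IsLattice Γ) (_ : ∀ g : Γ, g ≠ 1 → Set.Infinite {y : Γ | ∃ h, y = h * g * h⁻¹})
    {Λ : Type} [Group Λ] [Countable Λ]
    (_ : ∀ g : Λ, g ≠ 1 → Set.Infinite {y : Λ | ∃ h, y = h * g * h⁻¹})
    {I : Type} [Fintype I] {α : Γ → (Ell2 (I × Λ) →L[ℂ] Ell2 (I × Λ))} (hα : AF α),
    ∃ (w : kˣ) (𝒰 : Ultrafilter ℕ) (κ₁ κ₂ : Type) (_ : Fintype κ₁) (_ : Fintype κ₂)
      (Ω₁ : κ₁ → Lp (HH (PT α α α)) 2 (cdat ν hν).μ) (Ω₂ : κ₂ → Lp (HH (PT α α α)) 2 (cdat ν hν).μ)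
      (m₁ m₂ : Set Γ → (Lp (HH (PT α α α)) 2 (cdat ν hν).μ →L[ℂ]
        Lp (HH (PT α α α)) 2 (cdat ν hν).μ)) (q₁ q₂ : Γ → S4 k),
      HasLegF μ w 𝒰 ι a (H34.Ind.pi (cdat ν hν) (V := V3 hα hα hα) (adjV3 hα))
        (H34.Ind.lam (cdat ν hν) (A3R hα hα hα))
        (H34.Ind.Xset (cdat ν hν) (HH (PT α α α)) ∪
          Set.range (H34.Ind.lam (cdat ν hν) (B3R hα hα hα))) Ω₁ m₁ q₁ ∧
      HasLegF μ w 𝒰 ι a (H34.Ind.pi (cdat ν hν) (V := V3 hα hα hα) (adjV3 hα))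
        (H34.Ind.lam (cdat ν hν) (B3R hα hα hα))
        (H34.Ind.Xset (cdat ν hν) (HH (PT α α α)) ∪
          Set.range (H34.Ind.lam (cdat ν hν) (A3R hα hα hα))) Ω₂ m₂ q₂ ∧
      (∀ γ, sp k 4 (q₁ γ).1 = 1 → γ = 1) ∧ (∀ γ, sp k 4 (q₂ γ).1 = 1 → γ = 1)

/-- **Assembly.** -/
theorem coreAllE_of {k : Type} [NontriviallyNormedField k] [ProperSpace k] [MeasurableSpace k]
    [OpensMeasurableSpace k] {μ : Measure k} {E : Type} [Group E] [TopologicalSpace E]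
    [IsTopologicalGroup E] [LocallyCompactSpace E] [SecondCountableTopology E] [T2Space E]
    [NoncompactSpace E] {ι : S4 k →* E} {a : E →* PG k 4}
    (hOne : SP.X.OneStmt k μ) (hCls : SP.X.ClsStmt k μ) (hXC : SP.X.XCStmt k)
    (hEx : ExStmtT k μ ι a) : CoreAllE E := by
  intro Γ hΓ hicc Λ _ _ hΛ n p hpj θ
  letI : MeasurableSpace E := borel _
  haveI : BorelSpace E := ⟨rfl⟩
  haveI hd : DiscreteTopology Γ := hΓ.disc
  haveI hc : Countable Γ := H790.countable_of_discrete (E := E) Γ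
  letI : MeasurableSpace (E ⧸ Γ) := borel _
  haveI : BorelSpace (E ⧸ Γ) := ⟨rfl⟩
  obtain ⟨ν, hP', hν⟩ := H515.IsLattice.exists_prob (Λ := Γ) ⟨hΓ.disc, hΓ.covol⟩
  have hα : AF (H103.alf θ) := H103.af_of hicc hpj θ
  obtain ⟨m, m', ξ, hT⟩ := H962.exists_tri hα hα hα hΛ
  obtain ⟨B, b, hB⟩ := H421.HsT.exists_basisHH (P := PT (H103.alf θ) (H103.alf θ) (H103.alf θ))
  have p2 := RC.pic2F_HH hν hα hα hα hicc hΛ (adjV3 hα) hT
  have tv := tv_tri hν (adjV3 hα) b hT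
  obtain ⟨w, 𝒰, κ₁, κ₂, _, _, Ω₁, Ω₂, m₁, m₂, q₁, q₂, l1, l2, i1, i2⟩ :=
    hEx (Γ := Γ) hν hΓ hicc hΛ hα
  obtain ⟨Q₁, Q₂, h1, h2, h12⟩ := clegs_of hOne hCls hXC p2 tv l1 l2 i1 i2
  exact H264.Amp.canonM_of_over hicc hΛ hpj θ rfl hα (H264.Amp.over_of_legs hν hT
    (X := H34.Ind.Xset (cdat ν hν) (HH (PT (H103.alf θ) (H103.alf θ) (H103.alf θ))))
    (fun S hS => ⟨S, hS, rfl⟩) h1 h2 h12)

/-- The core statement for `Sp_4(k)`, all amplifications. -/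
theorem coreAllE_sp {k : Type} [NontriviallyNormedField k] [ProperSpace k] [MeasurableSpace k]
    [OpensMeasurableSpace k] {μ : Measure k} (hOne : SP.X.OneStmt k μ) (hCls : SP.X.ClsStmt k μ)
    (hXC : SP.X.XCStmt k) (hEx : ∀ [LocallyCompactSpace (S4 k)] [SecondCountableTopology (S4 k)],
      ExStmtT k μ (MonoidHom.id (S4 k)) (spS k)) : CoreAllE (S4 k) := by
  haveI : LocallyCompactSpace (S4 k) := lc_S4
  haveI : SecondCountableTopology (S4 k) := sc_S4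
  haveI : NoncompactSpace (S4 k) := nc_S4
  exact coreAllE_of (E := S4 k) hOne hCls hXC hEx

/-- all ICC lattices of `Sp_4(ℝ)`, all amplifications -/
def FinalAllR : Prop := ∀ (Γ : Type) [Group Γ], St.SpLatticeOver ℝ Γ → SR.St.SuperAll Γ

/-- all ICC lattices of `Sp_4(k)`, `k` a local field with `2 ≠ 0`, all amplifications -/
def FinalAll : Prop := ∀ (Γ : Type) [Group Γ], St.SpLattice Γ → SR.St.SuperAll Γ

/-- **The final statement over `ℝ`, all amplifications.** -/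
theorem finalAllR (h1 : SP.X.OneStmt ℝ volume) (h2 : SP.X.ClsStmt ℝ volume) (h3 : SP.X.XCStmt ℝ)
    (h4 : ∀ [LocallyCompactSpace (S4 ℝ)] [SecondCountableTopology (S4 ℝ)],
      ExStmtT ℝ volume (MonoidHom.id (S4 ℝ)) (spS ℝ)) : FinalAllR := by
  intro Γ _ hΓ
  obtain ⟨hicc, G, i, hG, hi, hl⟩ := hΓ
  obtain rfl := eq_form hG
  exact superAll_of_coreAllE (coreAllE_sp h1 h2 h3 h4) hicc i hi hl

/-- **The final statement for all local fields with `2 ≠ 0`, all amplifications.** -/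
theorem finalAll (h : ∀ (k : Type) [NontriviallyNormedField k] [ProperSpace k] [MeasurableSpace k]
    [BorelSpace k] (μ : Measure k) [μ.IsAddHaarMeasure], H933.LocK k → (2 : k) ≠ 0 →
    SP.X.OneStmt k μ ∧ SP.X.ClsStmt k μ ∧ SP.X.XCStmt k ∧
      ∀ [LocallyCompactSpace (S4 k)] [SecondCountableTopology (S4 k)],
        ExStmtT k μ (MonoidHom.id (S4 k)) (spS k)) : FinalAll := by
  intro Γ _ hΓ
  obtain ⟨hicc, k, _, G, i, hp, hk, h2, hG, hi, hl⟩ := hΓ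
  obtain rfl := eq_form hG
  letI : MeasurableSpace k := borel k
  haveI : BorelSpace k := ⟨rfl⟩
  obtain ⟨h1, h3, h4, h5⟩ := h k (Measure.addHaar : Measure k) (SN.lk hk) h2
  exact superAll_of_coreAllE (coreAllE_sp h1 h3 h4 h5) hicc i hi hl

end conc

end Vale.Agent.P092.SP.X
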